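import Vale.Agent.P354J.Tame

open scoped ContDiff
open Set Filter Topology

namespace Vale.Agent.P354J

open Vale.Agent.P354H

variable {D E V W : Type} [NormedAddCommGroup E] [NormedSpace ℝ E] [NormedAddCommGroup V]
  [NormedSpace ℝ V] [NormedAddCommGroup W] [NormedSpace ℝ W]

/-- The operator T is a smooth function of at most k derivatives of the function J d, in the sense
of Lipschitz estimates at points where J d takes values in Q. -/
structure Tame (J : D → X3 → E) (Q : Set E) (k : ℕ) (T : D → X3 → V) : Prop where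
  sm : ∀ d, ContDiff ℝ ∞ (T d)
  est : ∀ m B, ∃ C, 0 ≤ C ∧ ∀ ε x d d', J d x ∈ Q → J d' x ∈ Q →
    Tm (m + k) B ε x (J d) (J d') → Tm m C (C * ε) x (T d) (T d')

variable {J : D → X3 → E} {Q : Set E} {k : ℕ}

lemma Tame.mono {k' : ℕ} {T : D → X3 → V} (h : Tame J Q k T) (hk : k ≤ k') : Tame J Q k' T := by
  refine ⟨h.sm, fun m B => ?_⟩
  obtain ⟨C, hC0, hC⟩ := h.est m B
  exact ⟨C, hC0, fun ε x d d' h1 h2 h3 =>
    hC ε x d d' h1 h2 (h3.mono (Nat.add_le_add_left hk m) le_rfl le_rfl)⟩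

lemma Tame.congr {T T' : D → X3 → V} (h : Tame J Q k T) (e : ∀ d y, T' d y = T d y) :
    Tame J Q k T' := by
  have : T' = T := funext fun d => funext (e d)
  rwa [this]

lemma Tame.base [FiniteDimensional ℝ E] {O : Set E} (hO : IsOpen O) (hQ : Q ⊆ O)
    (hc : IsCompact Q) (hv : Convex ℝ Q) (hJ : ∀ d, ContDiff ℝ ∞ (J d)) (hJO : ∀ d y, J d y ∈ O)
    {F : E → V} (hF : ContDiffOn ℝ ∞ F O) : Tame J Q k (fun d y => F (J d y)) := by
  refine Tame.mono (k := 0) ⟨fun d => hF.comp_contDiff (hJ d) (hJO d), fun m B => ?_⟩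
    (Nat.zero_le _)
  obtain ⟨C, hC0, hC⟩ := Tm.comp m E V F O Q B hO hF hQ hc hv
  exact ⟨C, hC0, fun ε x d d' h1 h2 h3 => hC ε x _ _ h3 (hJO d) (hJO d') h1 h2⟩

lemma Tame.pd {T : D → X3 → V} (h : Tame J Q k T) (j : Fin 3) :
    Tame J Q (k + 1) (fun d => pd j (T d)) := by
  refine ⟨fun d => sm_pd (h.sm d) j, fun m B => ?_⟩
  obtain ⟨C, hC0, hC⟩ := h.est (m + 1) B
  exact ⟨C, hC0, fun ε x d d' h1 h2 h3 =>
    (hC ε x d d' h1 h2 (h3.mono (by omega) le_rfl le_rfl)).pd j⟩

lemma Tame.pair {T : D → X3 → V} {T' : D → X3 → W} (h : Tame J Q k T) (h' : Tame J Q k T') :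
    Tame J Q k (fun d y => (T d y, T' d y)) := by
  refine ⟨fun d => (h.sm d).prodMk (h'.sm d), fun m B => ?_⟩
  obtain ⟨C, hC0, hC⟩ := h.est m B
  obtain ⟨C', hC0', hC'⟩ := h'.est m B
  refine ⟨max C C', le_max_of_le_left hC0, fun ε x d d' h1 h2 h3 => ?_⟩
  have hε := h3.bd.nonneg
  exact ((hC ε x d d' h1 h2 h3).mono le_rfl (le_max_left _ _)
    (mul_le_mul_of_nonneg_right (le_max_left _ _) hε)).pair
    ((hC' ε x d d' h1 h2 h3).mono le_rfl (le_max_right _ _)
    (mul_le_mul_of_nonneg_right (le_max_right _ _) hε))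

lemma Tame.comp [FiniteDimensional ℝ V] {T : D → X3 → V} (h : Tame J Q k T) {F : V → W}
    (hF : ContDiff ℝ ∞ F) : Tame J Q k (fun d y => F (T d y)) := by
  refine ⟨fun d => hF.comp (h.sm d), fun m B => ?_⟩
  obtain ⟨C, hC0, hC⟩ := h.est m B
  obtain ⟨C', hC0', hC'⟩ := Tm.comp m V W F univ (Metric.closedBall 0 C) C isOpen_univ
    hF.contDiffOn (subset_univ _) (isCompact_closedBall _ _) (convex_closedBall _ _)
  refine ⟨max C' (C' * C), le_max_of_le_left hC0', fun ε x d d' h1 h2 h3 => ?_⟩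
  have h4 := hC ε x d d' h1 h2 h3
  refine (hC' (C * ε) x _ _ h4 (fun _ => mem_univ _) (fun _ => mem_univ _)
    (mem_closedBall_zero_iff.2 h4.bf.zero) (mem_closedBall_zero_iff.2 h4.bg.zero)).mono le_rfl
    (le_max_left _ _) ?_
  rw [← mul_assoc]
  exact mul_le_mul_of_nonneg_right (le_max_right _ _) h3.bd.nonneg

lemma Tame.const (c : V) : Tame J Q k (fun _ _ => c) := by
  have h0 : ∀ (α : List (Fin 3)), pdl α (fun _ : X3 => (0 : V)) = fun _ => 0 := by
    intro α
    induction α with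
    | nil => rfl
    | cons j α ih =>
      show pdl α (P354H.pd j fun _ => (0 : V)) = _
      rw [show P354H.pd j (fun _ : X3 => (0 : V)) = fun _ => 0 by funext y; simp [P354H.pd], ih]
  have h1 : ∀ m x, Bd m (fun _ : X3 => c) x ‖c‖ := by
    intro m x α _
    cases α with
    | nil => exact le_rfl
    | cons j α =>
      show ‖pdl α (P354H.pd j fun _ => c) x‖ ≤ _
      rw [show P354H.pd j (fun _ : X3 => c) = fun _ => 0 by funext y; simp [P354H.pd], h0]
      simp
  refine ⟨fun _ => contDiff_const, fun m B => ⟨‖c‖, norm_nonneg _, fun ε x d d' _ _ h3 =>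
    ⟨contDiff_const, contDiff_const, h1 m x, h1 m x, fun α _ => ?_⟩⟩⟩
  simp only [sub_self, h0, norm_zero]
  exact mul_nonneg (norm_nonneg _) h3.bd.nonneg

section
variable [FiniteDimensional ℝ V] {T T' : D → X3 → V}

lemma Tame.add (h : Tame J Q k T) (h' : Tame J Q k T') :
    Tame J Q k (fun d y => T d y + T' d y) :=
  (h.pair h').comp (F := fun p : V × V => p.1 + p.2) (by fun_prop)

lemma Tame.sub (h : Tame J Q k T) (h' : Tame J Q k T') :
    Tame J Q k (fun d y => T d y - T' d y) :=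
  (h.pair h').comp (F := fun p : V × V => p.1 - p.2) (by fun_prop)

lemma Tame.neg (h : Tame J Q k T) : Tame J Q k (fun d y => - T d y) :=
  h.comp (F := fun p : V => -p) (by fun_prop)

lemma Tame.smul {c : D → X3 → ℝ} (h : Tame J Q k c) (h' : Tame J Q k T) :
    Tame J Q k (fun d y => c d y • T d y) :=
  (h.pair h').comp (F := fun p : ℝ × V => p.1 • p.2) (by fun_prop)

lemma Tame.sum {ι : Type} (s : Finset ι) {T : ι → D → X3 → V}
    (h : ∀ i ∈ s, Tame J Q k (T i)) : Tame J Q k (fun d y => ∑ i ∈ s, T i d y) := by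
  classical
  induction s using Finset.induction_on with
  | empty => simpa using Tame.const (0 : V)
  | insert a s ha ih =>
    simp only [Finset.sum_insert ha]
    exact (h a (Finset.mem_insert_self _ _)).add
      (ih fun i hi => h i (Finset.mem_insert_of_mem hi))

end

lemma Tame.mul {𝔸 : Type} [NormedRing 𝔸] [NormedAlgebra ℝ 𝔸] [FiniteDimensional ℝ 𝔸]
    {T T' : D → X3 → 𝔸} (h : Tame J Q k T) (h' : Tame J Q k T') :
    Tame J Q k (fun d y => T d y * T' d y) :=
  (h.pair h').comp (F := fun p : 𝔸 × 𝔸 => p.1 * p.2) (by fun_prop)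

/-- A family of real operators as one operator with values in a Euclidean space. -/
lemma Tame.euc {ι : Type} [Fintype ι] {T : ι → D → X3 → ℝ} (h : ∀ i, Tame J Q k (T i)) :
    Tame J Q k (fun d y => (WithLp.toLp 2 (fun i => T i d y) : EuclideanSpace ℝ ι)) := by
  classical
  refine (Tame.sum Finset.univ (T := fun i d y => T i d y • EuclideanSpace.single i (1 : ℝ))
    fun i _ => (h i).smul (Tame.const _)).congr fun d y => ?_
  ext j
  simp [Pi.single_apply]

end Vale.Agent.P354J
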