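import Vale.Agent.P354J.Frame
import Vale.Agent.P354J.Tame2
import Vale.Agent.P354C.Defs
import Vale.Agent.P354I.Defs
import Vale.Agent.P354R.Defs
import Vale.Agent.P354E.GeoDefs

/-!
Block B4 of the interior theorem: data and frame. Definitions and exact statements.
-/

open scoped ContDiff
open Set Filter Topology Matrix

noncomputable section

namespace Vale.Agent.P354J

open Vale.Agent.P354H Vale.Agent.P354C Vale.Agent.P354C.Ix
open Vale.Agent.P354n (R4)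
open Vale.Agent.P354I (X)

/-! ### The charts -/

/-- The chart map y = exp(x) st(sigma, theta), its Jacobian (rows: the images of the coordinate
vectors), and the pull back of a 2-tensor. -/
def Phi (σ : Bool) (z : X3) : X := Real.exp z.1 • (P354E.st σ z.2).1
def Jm (σ : Bool) (z : X3) : M3 := Matrix.of fun a i => pd a (fun w => Phi σ w i) z
def pb (σ : Bool) (F : X → M3) (z : X3) : M3 := Jm σ z * F (Phi σ z) * (Jm σ z)ᵀ

/-- The inverse of the chart map. -/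
def Psi (σ : Bool) (y : X) : X3 :=
  (Real.log ‖y‖, y 0 / (‖y‖ + P354E.sg σ * y 2), y 1 / (‖y‖ + P354E.sg σ * y 2))

/-! ### The frame of a metric -/

def dg (h : M3) : ℝ := h 1 1 * h 2 2 - h 1 2 ^ 2
def Oh (h : M3) : ℝ := √(h.det / dg h)
def bh1 (h : M3) : ℝ := -2 * (h 2 2 * h 0 1 - h 1 2 * h 0 2) / dg h
def bh2 (h : M3) : ℝ := -2 * (h 1 1 * h 0 2 - h 1 2 * h 0 1) / dg h
def rt (h : M3) : ℝ := √(dg h) * √(h 1 1 + h 2 2 + 2 * √(dg h))

/-- P is Oh times the symmetric positive square root of the inverse of the angular part of h. -/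
def ph11 (h : M3) : ℝ := Oh h * (h 2 2 + √(dg h)) / rt h
def ph12 (h : M3) : ℝ := -(Oh h * h 1 2 / rt h)
def ph22 (h : M3) : ℝ := Oh h * (h 1 1 + √(dg h)) / rt h

/-- The rows are the vectors (l - n) / 2, e2, e3. -/
def Eh (h : M3) : M3 := !![1, bh1 h / 2, bh2 h / 2; 0, ph11 h, ph12 h; 0, ph12 h, ph22 h]
def Eu (U : Ix → ℝ) : M3 := !![1, U b1 / 2, U b2 / 2; 0, U P11, U P12; 0, U P21, U P22]

/-! ### The unknowns on the slice -/

/-- The derivatives of u along l - n, 0, e2, e3. -/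
def dsl (u : X3 → Ix → ℝ) (y : X3) (k : Fin 4) (i : Ix) : ℝ :=
  ![2 * fd (fun z => Eu (u z)) 0 (fun z => u z i) y, 0, fd (fun z => Eu (u z)) 1 (fun z => u z i) y,
    fd (fun z => Eu (u z)) 2 (fun z => u z i) y] k

/-- The connection of the data (h, K) in the frame (O N, (l - n) / 2, e2, e3), on the frame
vectors (l - n) / 2, e2, e3. -/
def Gh (h K : X3 → M3) : Fin 3 → X3 → M4 :=
  ev (fun y => Eh (h y)) (P354J.om h (fun y => (h y)⁻¹) K (fun y => Oh (h y)) (fun y => Eh (h y))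
    (fun y => (Eh (h y))⁻¹))

/-- The unknowns from the frame of h and a connection G; curvature zero. -/
def u1 (h : M3) (G : Fin 3 → M4) : Ix → ℝ
  | .O => Oh h
  | .b1 => bh1 h
  | .b2 => bh2 h
  | .P11 => ph11 h
  | .P12 => ph12 h
  | .P21 => ph12 h
  | .P22 => ph22 h
  | .om => G 0 0 0 + G 0 0 1
  | .p1 => (G 1 0 0 + G 1 0 1) / 2
  | .p2 => (G 2 0 0 + G 2 0 1) / 2
  | .omb => -(G 0 0 0 - G 0 0 1)
  | .q1 => (G 1 0 0 - G 1 0 1) / 2
  | .q2 => (G 2 0 0 - G 2 0 1) / 2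
  | .r0 => 2 * G 0 3 2
  | .r1 => G 1 3 2
  | .r2 => G 2 3 2
  | .A1 => -(G 0 2 0 + G 0 2 1)
  | .A2 => -(G 0 3 0 + G 0 3 1)
  | .X11 => (G 1 2 0 + G 1 2 1) / 2
  | .X12 => (G 2 2 0 + G 2 2 1) / 2
  | .X21 => (G 1 3 0 + G 1 3 1) / 2
  | .X22 => (G 2 3 0 + G 2 3 1) / 2
  | .B1 => G 0 2 0 - G 0 2 1
  | .B2 => G 0 3 0 - G 0 3 1
  | .Y11 => (G 1 2 0 - G 1 2 1) / 2
  | .Y12 => (G 2 2 0 - G 2 2 1) / 2
  | .Y21 => (G 1 3 0 - G 1 3 1) / 2
  | .Y22 => (G 2 3 0 - G 2 3 1) / 2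
  | _ => 0

/-- The curvature defect on two of the vectors l - n, e2, e3. -/
def curT (U : Ix → ℝ) (dU : Fin 4 → Ix → ℝ) (s t : Fin 3) (j k : Fin 4) : ℝ :=
  ∑ x, ∑ y, tang s x * tang t y * curD U dU j k x y

/-- The Weyl components read off from the curvature along the slice of the connection in U (whose
Weyl entries are zero). -/
def u2 (U : Ix → ℝ) (dU : Fin 4 → Ix → ℝ) : Ix → ℝ
  | .a1 => (curT U dU 0 2 1 3 - curT U dU 0 1 1 2) / 2
  | .a2 => -(curT U dU 0 2 1 2 + curT U dU 0 1 1 3) / 2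
  | .be1 => curT U dU 1 2 1 3
  | .be2 => -curT U dU 1 2 1 2
  | .rho => curT U dU 1 2 3 2 / 2
  | .sig => curT U dU 1 2 0 0 / 2
  | .bb1 => -curT U dU 1 2 0 3
  | .bb2 => curT U dU 1 2 0 2
  | .ab1 => (curT U dU 0 1 0 2 - curT U dU 0 2 0 3) / 2
  | .ab2 => (curT U dU 0 2 0 2 + curT U dU 0 1 0 3) / 2
  | i => U i

/-- The initial values of the unknowns for the data (h, K) in a chart. -/
def U1 (h K : X3 → M3) (y : X3) : Ix → ℝ := u1 (h y) fun a => Gh h K a y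
def U0 (h K : X3 → M3) (y : X3) : Ix → ℝ := u2 (U1 h K y) (dsl (U1 h K) y)

/-- The initial values for the data d in the chart sigma. -/
def Ud (d : P354I.Dat) (σ : Bool) : X3 → Ix → ℝ := U0 (pb σ d.h) (pb σ d.K)

/-- The future unit normal (l + n) / (2 O) and the second fundamental form of the slices. -/
def nU (U : Ix → ℝ) : R4 := (2 * U O)⁻¹ • (fr U 0 + fr U 1)
def Kf (U : Ix → ℝ) (a b : X3) : ℝ :=
  U O * ∑ i, ∑ j, th U (0, a) i * (Gam U i 0 j + Gam U i 1 j) * th U (0, b) j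

/-- The metric of the slice. -/
def hf (U : Ix → ℝ) (a b : X3) : ℝ := U O ^ 2 * eta (th U (0, a)) (th U (0, b))

/-- U induces the forms h and K on the slice. -/
def Ind (U : Ix → ℝ) (h K : M3) : Prop :=
  ∀ a b, hf U (e a) (e b) = h a b ∧ Kf U (e a) (e b) = K a b

/-- The traces of the curvature F of the Gauss-Weingarten connection. -/
def ham (hi : M3) (F : Fin 3 → Fin 3 → M4) : ℝ := ∑ k, ∑ j, ∑ l, hi j l * F k j k.succ l.succ
def mom (hi : M3) (F : Fin 3 → Fin 3 → M4) (i : Fin 3) : ℝ := ∑ j, ∑ l, hi j l * F i j 0 l.succ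

/-- The constraint equations in a chart. -/
def CC (h K : X3 → M3) (y : X3) : Prop :=
  ham (h y)⁻¹ (fun i j => curv (GW h (fun z => (h z)⁻¹) K) i j y) = 0 ∧
    ∀ i, mom (h y)⁻¹ (fun i j => curv (GW h (fun z => (h z)⁻¹) K) i j y) i = 0

/-- Smooth data in a chart. -/
structure PD (h K : X3 → M3) : Prop where
  sh : MS h
  sK : MS K
  pos : ∀ y, (h y).PosDef ∧ (K y).IsSymm

/-- Smooth data on the cylinder. -/
def PDy (d : P354I.Dat) : Prop :=
  (∀ i j, ContDiffOn ℝ ∞ (fun y => d.h y i j) {0}ᶜ ∧ ContDiffOn ℝ ∞ (fun y => d.K y i j) {0}ᶜ) ∧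
    ∀ y ≠ 0, (d.h y).PosDef ∧ (d.K y).IsSymm

/-! ### Statements -/

/-- The initial values are smooth, induce the data, and solve the constraints of the frame system
where the data solve the constraint equations. -/
def SL1 : Prop :=
  ∀ h K, PD h K → (∀ i, ContDiff ℝ ∞ fun y => U0 h K y i) ∧ ∀ y, 0 < U0 h K y O ∧
    0 < U0 h K y P11 ∧ 0 < detP (U0 h K y) ∧ U0 h K y P12 = U0 h K y P21 ∧
    Ind (U0 h K y) (h y) (K y) ∧ (CC h K y ↔ Constr (U0 h K y) (dsl (U0 h K) y))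

/-- The constraint equations in the charts and on the cylinder. -/
def SL2 : Prop :=
  ∀ d σ, PDy d → PD (pb σ d.h) (pb σ d.K) ∧ ∀ z, CC (pb σ d.h) (pb σ d.K) z ↔
    (d.scal (Phi σ z) + d.trK (Phi σ z) ^ 2 - d.sqK (Phi σ z) = 0 ∧
      ∀ j, d.divK j (Phi σ z) - P354I.pd j d.trK (Phi σ z) = 0)

/-- The constraints only contain derivatives along the slice. -/
def DSL : Prop :=
  ∀ (U : R4 → Ix → ℝ) (t : ℝ) (y : X3), (∀ i, DifferentiableAt ℝ (fun z => U z i) (t, y)) →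
    (Constr (U (t, y)) (dfr U (t, y)) ↔ Constr (U (t, y)) (dsl (sl U t) y))

/-- Uniqueness on the slice. -/
def UQ : Prop :=
  ∀ (u u' : X3 → Ix → ℝ) (D : Set X3), IsOpen D →
    (∀ y ∈ D, detP (u y) ≠ 0 ∧ u y O ≠ 0 ∧ Constr (u y) (dsl u y) ∧ Constr (u' y) (dsl u' y) ∧
      (∀ i ∈ [O, b1, b2, P11, P12, P21, P22], u y i = u' y i) ∧
      ∀ a b, Kf (u y) (e a) (e b) = Kf (u' y) (e a) (e b)) → ∀ y ∈ D, u y = u' y

/-- The frame with symmetric positive P is determined by the metric. -/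
def FU : Prop :=
  ∀ (U U' : Ix → ℝ), 0 < U O → 0 < U P11 → 0 < detP U → U P12 = U P21 → 0 < U' O → 0 < U' P11 →
    0 < detP U' → U' P12 = U' P21 → (∀ a b, hf U (e a) (e b) = hf U' (e a) (e b)) →
    ∀ i ∈ [O, b1, b2, P11, P12, P21, P22], U i = U' i

/-- Values on the slice which solve the constraints and induce (h, K), with symmetric positive P,
are the initial values, and (h, K) solves the constraint equations. -/
def CV : Prop :=
  ∀ h K, PD h K → ∀ (u : X3 → Ix → ℝ) (D : Set X3), IsOpen D →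
    (∀ y ∈ D, 0 < u y O ∧ 0 < u y P11 ∧ 0 < detP (u y) ∧ u y P12 = u y P21 ∧
      Ind (u y) (h y) (K y) ∧ Constr (u y) (dsl u y)) → ∀ y ∈ D, u y = U0 h K y ∧ CC h K y

/-- The unit normal and the second fundamental form of the slices for met and con. -/
def IND : Prop :=
  ∀ (U : R4 → Ix → ℝ) (p : R4), detP (U p) ≠ 0 → U p O ≠ 0 →
    met U p (nU (U p)) (nU (U p)) = -1 ∧ ∀ a b : X3, met U p (0, a) (nU (U p)) = 0 ∧
      met U p (nU (U p)) (0, a) = 0 ∧ met U p (0, a) (0, b) = hf (U p) a b ∧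
      -met U p (nU (U p)) (con U p (0, a) (0, b)) = Kf (U p) a b

/-- The inverse chart; forms which have the components of the pull back of F in the chart have
the components of F on the images of the coordinate vectors of the cylinder. -/
def INV : Prop :=
  ∀ σ, (∀ z, Phi σ z ≠ 0 ∧ ‖Phi σ z‖ + P354E.sg σ * Phi σ z 2 ≠ 0 ∧ Psi σ (Phi σ z) = z) ∧
    ∀ y ≠ 0, ‖y‖ + P354E.sg σ * y 2 ≠ 0 → Phi σ (Psi σ y) = y ∧ ContDiffAt ℝ ∞ (Psi σ) y ∧
      ∀ (d : P354I.Dat) (U : Ix → ℝ), Ind U (pb σ d.h (Psi σ y)) (pb σ d.K (Psi σ y)) → ∀ i k,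
        hf U (P354I.pd i (Psi σ) y) (P354I.pd k (Psi σ) y) = d.h y i k ∧
        Kf U (P354I.pd i (Psi σ) y) (P354I.pd k (Psi σ) y) = d.K y i k

/-- The weight of the seminorms. -/
def wt (s : ℝ) (z : X3) : ℝ := √(1 + z.1 ^ 2) ^ (-s)

/-- Lipschitz dependence of the initial values on the data near data k whose pull backs do not
depend on x. -/
def LIP : Prop :=
  ∀ (k : P354I.Dat) (m : ℕ) (R : ℝ), PDy k →
    (∀ σ x y, pb σ k.h (x, y) = pb σ k.h (0, y) ∧ pb σ k.K (x, y) = pb σ k.K (0, y)) →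
    ∃ C δ : ℝ, 0 ≤ C ∧ 0 < δ ∧ ∀ (s ε : ℝ) (d d' : P354I.Dat), 0 ≤ s → 0 ≤ ε → PDy d → PDy d' →
      P354I.pm s (m + 2) d k ≤ ENNReal.ofReal δ → P354I.pm s (m + 2) d' k ≤ ENNReal.ofReal δ →
      P354I.pm s (m + 2) d d' ≤ ENNReal.ofReal ε → ∀ σ (z : X3), ‖z.2‖ ≤ R → ∀ i,
        Tm m C (C * ε * wt s z) z (fun y => Ud d σ y i) (fun y => Ud d' σ y i)

/-- The derivatives of a pull back are bounded by the seminorms. -/
def PBE : Prop :=
  ∀ (m : ℕ) (R : ℝ), ∃ C : ℝ, 0 ≤ C ∧ ∀ (s ε : ℝ) (F : X → M3), 0 ≤ ε →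
    (∀ i j, ContDiffOn ℝ ∞ (fun y => F y i j) {0}ᶜ ∧
      P354I.wn s m (fun y => F y i j) ≤ ENNReal.ofReal ε) →
    ∀ σ (z : X3), ‖z.2‖ ≤ R → ∀ a b, Bd m (fun w => pb σ F w a b) z (C * ε * wt s z)

/-- The Kerr data in the charts. -/
def KER : Prop :=
  ∀ M a r0, 0 < r0 → ∀ σ z i j, pb σ (P354I.kerr M a r0).h z i j = P354R.hK M a r0 σ z (e i) (e j) ∧
    pb σ (P354I.kerr M a r0).K z i j = P354R.kK M a r0 σ z (e i) (e j)

end Vale.Agent.P354J
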