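import Vale.Agent.P354J.Sl
import Vale.Agent.P354JK.Main

open scoped ContDiff
open Set Filter Topology Matrix

noncomputable section

namespace Vale.Agent.P354J

open Vale.Agent.P354H Vale.Agent.P354JK
open Vale.Agent.P354I (X ee)

lemma phi_ne (σ : Bool) (z : X3) : Phi σ z ≠ 0 := norm_pos_iff.1 (norm_phi σ z ▸ Real.exp_pos _)

section
variable {f g : X → ℝ}

lemma y_diff (hf : ContDiffOn ℝ ∞ f {0}ᶜ) {y : X} (hy : y ≠ 0) : DifferentiableAt ℝ f y :=
  (hf.contDiffAt (isOpen_compl_singleton.mem_nhds hy)).differentiableAt (by simp)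

lemma y_pd (hf : ContDiffOn ℝ ∞ f {0}ᶜ) (i : Fin 3) : ContDiffOn ℝ ∞ (P354I.pd i f) {0}ᶜ :=
  (hf.fderiv_of_isOpen isOpen_compl_singleton (m := ∞) le_rfl).clm_apply contDiffOn_const

lemma y_comp (hf : ContDiffOn ℝ ∞ f {0}ᶜ) (σ : Bool) : ContDiff ℝ ∞ fun z => f (Phi σ z) :=
  hf.comp_contDiff (phi_smooth σ) (phi_ne σ)

lemma chain (hf : ContDiffOn ℝ ∞ f {0}ᶜ) (σ : Bool) (a : Fin 3) (z : X3) :
    pd a (fun w => f (Phi σ w)) z = ∑ i, Jm σ z a i * P354I.pd i f (Phi σ z) := by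
  have h1 := ((y_diff hf (phi_ne σ z)).hasFDerivAt.comp z
    (sm_diff (phi_smooth σ) z).hasFDerivAt).fderiv
  have h2 : pd a (fun w => f (Phi σ w)) z = fderiv ℝ f (Phi σ z) (DP σ z (e a)) :=
    congrArg (fun L : X3 →L[ℝ] ℝ => L (e a)) h1
  have h3 : DP σ z (e a) = ∑ i, DP σ z (e a) i • ee i := by
    ext j
    simp [ee, Pi.single_apply]
  rw [h2, h3, map_sum]
  simp only [map_smul, smul_eq_mul, Jm_eq, P354I.pd]

lemma y_mul (hf : ContDiffOn ℝ ∞ f {0}ᶜ) (hg : ContDiffOn ℝ ∞ g {0}ᶜ) {y : X} (hy : y ≠ 0)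
    (i : Fin 3) : P354I.pd i (fun y => f y * g y) y =
      P354I.pd i f y * g y + f y * P354I.pd i g y := by
  unfold P354I.pd
  rw [fderiv_fun_mul (y_diff hf hy) (y_diff hg hy)]
  simp only [_root_.add_apply, _root_.smul_apply, smul_eq_mul]
  ring

lemma y_sum {ι : Type} (s : Finset ι) {f : ι → X → ℝ} (hf : ∀ i, ContDiffOn ℝ ∞ (f i) {0}ᶜ)
    {y : X} (hy : y ≠ 0) (j : Fin 3) :
    P354I.pd j (fun y => ∑ i ∈ s, f i y) y = ∑ i ∈ s, P354I.pd j (f i) y := by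
  unfold P354I.pd
  rw [fderiv_fun_sum fun i _ => y_diff (hf i) hy]
  simp

lemma y_congr (h : ∀ y ≠ 0, f y = g y) {y : X} (hy : y ≠ 0) (i : Fin 3) :
    P354I.pd i f y = P354I.pd i g y := by
  unfold P354I.pd
  rw [Filter.EventuallyEq.fderiv_eq ((isOpen_ne.eventually_mem hy).mono fun z hz => h z hz)]

end

lemma ms_Jm (σ : Bool) : MS (Jm σ) := fun a i =>
  sm_pd ((EuclideanSpace.proj i : X →L[ℝ] ℝ).contDiff.comp (phi_smooth σ)) a

lemma Jm_sym (σ : Bool) (a b i : Fin 3) (z : X3) :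
    pd a (fun w => Jm σ w b i) z = pd b (fun w => Jm σ w a i) z :=
  pd_comm ((EuclideanSpace.proj i : X →L[ℝ] ℝ).contDiff.comp (phi_smooth σ)) a b z

lemma det_Jm (σ : Bool) (z : X3) : (Jm σ z).det ≠ 0 := by
  have k : ∀ a b, (Jm σ z * (Jm σ z)ᵀ) a b =
      Real.exp z.1 ^ 2 * ((e a).1 * (e b).1 + P354R.rnd z.2 (e a).2 (e b).2) := by
    intro a b
    rw [← inner_DP σ, inner3]
    simp only [Matrix.mul_apply, transpose_apply, Jm_eq, Fin.sum_univ_three]
  intro h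
  have h1 : (Jm σ z * (Jm σ z)ᵀ).det = 0 := by rw [det_mul, h, zero_mul]
  rw [det_fin_three] at h1
  simp only [k] at h1
  simp [e, P354R.rnd] at h1
  have : 0 < 1 + z.2.1 ^ 2 + z.2.2 ^ 2 := by positivity
  linarith

lemma ms_Ji (σ : Bool) : MS fun z => (Jm σ z)⁻¹ := fun i j =>
  contDiffOn_univ.1 (inv_smoothOn (fun i j => (ms_Jm σ i j).contDiffOn)
    (fun z _ => det_Jm σ z) i j)

lemma Ji_J (σ : Bool) (z : X3) : (Jm σ z)⁻¹ * Jm σ z = 1 :=
  Matrix.nonsing_inv_mul _ (det_Jm σ z).isUnit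

lemma J_Ji (σ : Bool) (z : X3) : Jm σ z * (Jm σ z)⁻¹ = 1 := mul_eq_one_comm.1 (Ji_J σ z)

lemma ms_pb (σ : Bool) {F : X → M3} (h : ∀ i j, ContDiffOn ℝ ∞ (fun y => F y i j) {0}ᶜ) :
    MS (pb σ F) :=
  ((ms_Jm σ).mul (N := fun z => F (Phi σ z)) fun i j => y_comp (h i j) σ).mul (ms_Jm σ).tr

variable {d : P354I.Dat}

lemma PDy.toPD (D : PDy d) (σ : Bool) : PD (pb σ d.h) (pb σ d.K) := by
  refine ⟨ms_pb σ fun i j => (D.1 i j).1, ms_pb σ fun i j => (D.1 i j).2, fun z => ⟨?_, ?_⟩⟩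
  · have := (D.2 _ (phi_ne σ z)).1.mul_mul_conjTranspose_same (B := Jm σ z)
      (Matrix.vecMul_injective_iff_isUnit.2 ((Matrix.isUnit_iff_isUnit_det _).2
        (det_Jm σ z).isUnit))
    rwa [conjTranspose_eq_transpose_of_trivial] at this
  · unfold pb IsSymm
    rw [transpose_mul, transpose_mul, transpose_transpose, (D.2 _ (phi_ne σ z)).2.eq, mul_assoc]

/-- The Gauss-Weingarten connection on the cylinder and its curvature. -/
def Ay (d : P354I.Dat) (i : Fin 3) (y : X) : M4 :=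
  blk 0 (d.K y i) (fun k => ∑ l, (d.h y)⁻¹ k l * d.K y i l) (Matrix.of fun k j => d.chr k i j y)
def Fy (d : P354I.Dat) (i j : Fin 3) (y : X) : M4 :=
  (Matrix.of fun a b => P354I.pd i (fun y => Ay d j y a b) y) -
    (Matrix.of fun a b => P354I.pd j (fun y => Ay d i y a b) y) + Ay d i y * Ay d j y -
    Ay d j y * Ay d i y

lemma PDy.hi (D : PDy d) (i j : Fin 3) : ContDiffOn ℝ ∞ (fun y => (d.h y)⁻¹ i j) {0}ᶜ :=
  inv_smoothOn (fun i j => (D.1 i j).1) (fun y hy => (D.2 y hy).1.det_pos.ne') i j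

lemma PDy.chr (D : PDy d) (k i j : Fin 3) : ContDiffOn ℝ ∞ (d.chr k i j) {0}ᶜ :=
  ContDiffOn.sum (s := Finset.univ) fun l _ => ((D.hi k l).mul (((y_pd (D.1 j l).1 i).add
    (y_pd (D.1 i l).1 j)).sub (y_pd (D.1 i j).1 l))).div_const 2

lemma PDy.ay (D : PDy d) (i : Fin 3) (a b : Fin 4) :
    ContDiffOn ℝ ∞ (fun y => Ay d i y a b) {0}ᶜ := by
  refine Fin.cases ?_ (fun k => ?_) a <;> refine Fin.cases ?_ (fun j => ?_) b
  · exact contDiffOn_const (c := 0)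
  · exact (D.1 i j).2
  · exact ContDiffOn.sum (s := Finset.univ) fun l _ => (D.hi k l).mul (D.1 i l).2
  · exact D.chr k i j

lemma PDy.symh (D : PDy d) {y : X} (hy : y ≠ 0) (i j : Fin 3) : d.h y i j = d.h y j i :=
  sym_of_posDef (D.2 y hy).1 i j

lemma PDy.symK (D : PDy d) {y : X} (hy : y ≠ 0) (i j : Fin 3) : d.K y i j = d.K y j i :=
  (D.2 y hy).2.apply j i

lemma PDy.symd (D : PDy d) {y : X} (hy : y ≠ 0) (k i j : Fin 3) :
    P354I.pd k (fun z => d.h z i j) y = P354I.pd k (fun z => d.h z j i) y :=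
  y_congr (fun _ hz => D.symh hz i j) hy k

lemma PDy.inv (D : PDy d) {y : X} (hy : y ≠ 0) : (d.h y)⁻¹ * d.h y = 1 :=
  Matrix.nonsing_inv_mul _ (D.2 y hy).1.det_pos.ne'.isUnit

lemma PDy.low (D : PDy d) {y : X} (hy : y ≠ 0) (w : Fin 3 → ℝ) (j : Fin 3) :
    ∑ k, d.h y j k * ∑ l, (d.h y)⁻¹ k l * w l = w j := by
  have h1 : d.h y * (d.h y)⁻¹ = 1 := mul_eq_one_comm.1 (D.inv hy)
  have : (d.h y *ᵥ ((d.h y)⁻¹ *ᵥ w)) j = w j := by rw [mulVec_mulVec, h1, one_mulVec]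
  simpa [mulVec, dotProduct] using this

lemma PDy.chr_sym (D : PDy d) {y : X} (hy : y ≠ 0) (k i j : Fin 3) :
    d.chr k i j y = d.chr k j i y := by
  refine Finset.sum_congr rfl fun l _ => ?_
  rw [D.symd hy l i j]
  ring

lemma PDy.dh (D : PDy d) {y : X} (hy : y ≠ 0) (i k j : Fin 3) :
    P354I.pd i (fun z => d.h z k j) y =
      ∑ l, d.chr l i k y * d.h y l j + ∑ l, d.h y k l * d.chr l i j y := by
  have h1 := D.low hy (fun l => (P354I.pd i (fun z => d.h z k l) y +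
    P354I.pd k (fun z => d.h z i l) y - P354I.pd l (fun z => d.h z i k) y) / 2) j
  have h2 := D.low hy (fun l => (P354I.pd i (fun z => d.h z j l) y +
    P354I.pd j (fun z => d.h z i l) y - P354I.pd l (fun z => d.h z i j) y) / 2) k
  simp only [D.symh hy j, mul_comm (d.h y _ j)] at h1
  simp only [P354I.Dat.chr, mul_div_assoc]
  rw [h1, h2, D.symd hy i j k]
  ring

lemma PDy.met (D : PDy d) {y : X} (hy : y ≠ 0) (i : Fin 3) :
    (Ay d i y)ᵀ * blk (-1) 0 0 (d.h y) + blk (-1) 0 0 (d.h y) * Ay d i y =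
      blk 0 0 0 (Matrix.of fun k j => P354I.pd i (fun z => d.h z k j) y) := by
  ext a b
  rw [met_entry]
  refine Fin.cases ?_ (fun k => ?_) a <;> refine Fin.cases ?_ (fun j => ?_) b <;>
    simp only [Ay, blk_00, blk_0s, blk_s0, blk_ss, Pi.zero_apply, of_apply]
  · ring
  · have := D.low hy (d.K y i) j
    simp only [D.symh hy j] at this
    rw [← this]
    simp only [mul_comm, sub_self]
  · rw [D.low hy (d.K y i) k, sub_self]
  · rw [D.dh hy]

/-- The pull back of the connection to the chart. -/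
def Ap (d : P354I.Dat) (σ : Bool) (a : Fin 3) (z : X3) : M4 := ∑ i, Jm σ z a i • Ay d i (Phi σ z)

lemma PDy.ayp (D : PDy d) (σ : Bool) (i : Fin 3) : MS fun z => Ay d i (Phi σ z) :=
  fun a b => y_comp (D.ay i a b) σ

lemma PDy.ap (D : PDy d) (σ : Bool) (a : Fin 3) : MS (Ap d σ a) :=
  MS.sum Finset.univ fun i _ => MS.smul (ms_Jm σ a i) (D.ayp σ i)

lemma PDy.curv_ap (D : PDy d) (σ : Bool) (a b : Fin 3) (z : X3) :
    curv (Ap d σ) a b z = ∑ i, ∑ j, (Jm σ z a i * Jm σ z b j) • Fy d i j (Phi σ z) := by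
  have k0 : ∀ a j, MD a (fun z => Ay d j (Phi σ z)) z = ∑ i, Jm σ z a i •
      Matrix.of fun c e => P354I.pd i (fun y => Ay d j y c e) (Phi σ z) := by
    intro a j
    ext c e
    rw [MD_apply, chain (D.ay j c e)]
    simp only [Matrix.sum_apply, Matrix.smul_apply, of_apply, smul_eq_mul]
  have k : ∀ a b, MD a (Ap d σ b) z = ∑ j, (pd a (fun w => Jm σ w b j) z • Ay d j (Phi σ z) +
      Jm σ z b j • ∑ i, Jm σ z a i •
        Matrix.of fun c e => P354I.pd i (fun y => Ay d j y c e) (Phi σ z)) := by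
    intro a b
    unfold Ap
    rw [MD_sum _ fun j _ => MS.smul (ms_Jm σ b j) (D.ayp σ j)]
    exact Finset.sum_congr rfl fun j _ => by rw [MD_smul (ms_Jm σ b j) (D.ayp σ j), k0]
  unfold curv
  rw [k, k]
  simp only [Jm_sym σ b a, Ap, Fy, Fin.sum_univ_three, smul_add, smul_sub, mul_add, add_mul,
    Matrix.smul_mul, Matrix.mul_smul, smul_smul]
  module

lemma PDy.met_ap (D : PDy d) (σ : Bool) : IsMet (G4 fun z => d.h (Phi σ z)) (Ap d σ) := by
  intro a z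
  have h5 : (Ap d σ a z)ᵀ * G4 (fun z => d.h (Phi σ z)) z +
      G4 (fun z => d.h (Phi σ z)) z * Ap d σ a z = ∑ i, Jm σ z a i •
        ((Ay d i (Phi σ z))ᵀ * blk (-1) 0 0 (d.h (Phi σ z)) +
          blk (-1) 0 0 (d.h (Phi σ z)) * Ay d i (Phi σ z)) := by
    simp only [Ap, G4, Fin.sum_univ_three, transpose_add, transpose_smul, mul_add, add_mul,
      Matrix.smul_mul, Matrix.mul_smul, smul_add]
    abel
  rw [h5, MD_G4]
  simp only [D.met (phi_ne σ z)]
  ext c e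
  refine Fin.cases ?_ (fun k => ?_) c <;> refine Fin.cases ?_ (fun j => ?_) e <;>
    simp only [Matrix.sum_apply, Matrix.smul_apply, blk_00, blk_0s, blk_s0, blk_ss, Pi.zero_apply,
      of_apply, smul_eq_mul, mul_zero, Finset.sum_const_zero]
  exact chain (D.1 k j).1 σ a z

lemma PDy.tf_ap (D : PDy d) (σ : Bool) : IsTF (fun z => I4 * (Jm σ z)ᵀ) (Ap d σ) := by
  intro a b z c
  have sy : ∀ i j, Ay d i (Phi σ z) c (Fin.succ j) = Ay d j (Phi σ z) c i.succ := by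
    intro i j
    refine Fin.cases ?_ (fun k => ?_) c
    · exact D.symK (phi_ne σ z) i j
    · exact D.chr_sym (phi_ne σ z) k i j
  have k : ∀ a b, cov (Ap d σ) a (fun z => I4 * (Jm σ z)ᵀ) z c b =
      ∑ i, I4 c i * pd a (fun w => Jm σ w b i) z +
        ∑ j, (∑ i, Jm σ z a i * Ay d i (Phi σ z) c j.succ) * Jm σ z b j := by
    intro a b
    unfold cov
    rw [MD_mul (MS.const I4) (ms_Jm σ).tr, MD_const, Matrix.zero_mul, zero_add, ← Matrix.mul_assoc,
      Matrix.add_apply, Matrix.mul_apply, Matrix.mul_apply]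
    simp only [mul_I4, Ap, Matrix.sum_apply, Matrix.smul_apply, smul_eq_mul, transpose_apply]
    rfl
  rw [k, k]
  simp only [Jm_sym σ b a, Fin.sum_univ_three, sy 1 0, sy 2 0, sy 2 1]
  ring

lemma PDy.gw_eq (D : PDy d) (σ : Bool) :
    gauge (S0 (fun _ => 1) (Jm σ)) (T0 (fun _ => 1) fun z => (Jm σ z)⁻¹) (Ap d σ) =
      GW (pb σ d.h) (fun z => (pb σ d.h z)⁻¹) (pb σ d.K) ∧
    MS (S0 (fun _ => 1) (Jm σ)) ∧ MS (T0 (fun _ => 1) fun z => (Jm σ z)⁻¹) ∧
    ∀ z, T0 (fun _ => 1) (fun z => (Jm σ z)⁻¹) z * S0 (fun _ => 1) (Jm σ) z = 1 := by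
  have sS : MS (S0 (fun _ => 1) (Jm σ)) :=
    MS.blk contDiff_const (fun _ => contDiff_const) (fun _ => contDiff_const) (ms_Jm σ).tr
  have sT : MS (T0 (fun _ => 1) fun z => (Jm σ z)⁻¹) :=
    MS.blk contDiff_const (fun _ => contDiff_const) (fun _ => contDiff_const) (ms_Ji σ).tr
  have TS : ∀ z, T0 (fun _ => 1) (fun z => (Jm σ z)⁻¹) z * S0 (fun _ => 1) (Jm σ) z = 1 := by
    intro z
    unfold T0 S0
    rw [blk_mul, inv_one, one_mul, ← transpose_mul, J_Ji, transpose_one, blk_one]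
  refine ⟨(D.toPD σ).dat.uniq ?_ ?_ fun i j z => ?_, sS, sT, TS⟩
  · have := IsMet.gauge sS TS (ms_G4 fun i j => y_comp (D.1 i j).1 σ) (D.met_ap σ)
    convert this using 2 with z
    unfold S0 G4
    rw [blk_tr, blk_mul, blk_mul, transpose_transpose]
    simp [pb]
  · have := IsTF.gauge sS sT TS ((MS.const I4).mul (ms_Jm σ).tr) (D.tf_ap σ)
    convert this using 2 with z
    ext c b
    rw [← Matrix.mul_assoc, Matrix.mul_apply]
    simp only [T0_I4, transpose_apply]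
    refine Fin.cases ?_ (fun k => ?_) c
    · simp [I4, (Fin.succ_ne_zero b).symm]
    · have := congrFun (congrFun (J_Ji σ z) b) k
      simp only [Matrix.mul_apply, Matrix.one_apply] at this
      simp only [Fin.cases_succ, mul_comm ((Jm σ z)⁻¹ _ k), this, I4, of_apply, Fin.succ_inj,
        eq_comm]
  · have k1 : (T0 (fun _ => 1) (fun z => (Jm σ z)⁻¹) z * MD i (S0 (fun _ => 1) (Jm σ)) z) 0
        j.succ = 0 := by
      simp only [Matrix.mul_apply, Fin.sum_univ_succ (n := 3), T0, blk_00, blk_0s, Pi.zero_apply,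
        zero_mul, Finset.sum_const_zero, add_zero, MD_apply, S0, pd_const, mul_zero]
    simp only [gauge, Matrix.add_apply, k1, add_zero]
    refine (blk_conj_0s _ _ _ _ _ _).trans ?_
    simp only [Ap, Ay, pb, Matrix.mul_apply, Matrix.sum_apply, Matrix.smul_apply, blk_0s,
      transpose_apply, smul_eq_mul, inv_one, one_mul]

lemma PDy.symhi (D : PDy d) {y : X} (hy : y ≠ 0) (i j : Fin 3) :
    (d.h y)⁻¹ i j = (d.h y)⁻¹ j i := sym_of_posDef (D.2 y hy).1.inv i j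

lemma PDy.ham_y (D : PDy d) {y : X} (hy : y ≠ 0) :
    ham (d.h y)⁻¹ (fun i j => Fy d i j y) = d.scal y + d.trK y ^ 2 - d.sqK y := by
  have k : ∀ k j l : Fin 3, Fy d k j y k.succ l.succ = P354I.pd k (d.chr k j l) y -
      P354I.pd j (d.chr k k l) y + ((∑ m, (d.h y)⁻¹ k m * d.K y k m) * d.K y j l +
        ∑ m, d.chr k k m y * d.chr m j l y) - ((∑ m, (d.h y)⁻¹ k m * d.K y j m) * d.K y k l +
        ∑ m, d.chr k j m y * d.chr m k l y) := by
    intro k j l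
    simp only [Fy, Ay, Matrix.add_apply, Matrix.sub_apply, of_apply, Matrix.mul_apply,
      Fin.sum_univ_succ (n := 3), blk_0s, blk_s0, blk_ss]
  simp only [ham, k, P354I.Dat.scal, P354I.Dat.ric, P354I.Dat.trK, P354I.Dat.sqK]
  simp only [Fin.sum_univ_three, D.symhi hy 1 0, D.symhi hy 2 0, D.symhi hy 2 1, D.symK hy 1 0,
    D.symK hy 2 0, D.symK hy 2 1]
  ring

lemma PDy.dhi (D : PDy d) {y : X} (hy : y ≠ 0) (i j l : Fin 3) :
    P354I.pd i (fun z => (d.h z)⁻¹ j l) y =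
      -(∑ a, (d.h y)⁻¹ j a * d.chr l i a y + ∑ b, d.chr j i b y * (d.h y)⁻¹ b l) := by
  let Γ : M3 := Matrix.of fun k j => d.chr k i j y
  let B : M3 := Matrix.of fun j l => P354I.pd i (fun z => (d.h z)⁻¹ j l) y
  have h1 : B * d.h y + (d.h y)⁻¹ * (Γᵀ * d.h y + d.h y * Γ) = 0 := by
    ext j l
    have h2 : P354I.pd i (fun z => ∑ k, (d.h z)⁻¹ j k * d.h z k l) y =
        P354I.pd i (fun _ => (1 : M3) j l) y :=
      y_congr (fun z hz => by rw [← D.inv hz, Matrix.mul_apply]) hy i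
    rw [y_sum _ (fun k => (D.hi j k).mul (D.1 k l).1) hy] at h2
    simp only [y_mul (D.hi j _) (D.1 _ l).1 hy, D.dh hy] at h2
    simp only [P354I.pd, fderiv_fun_const, Pi.zero_apply, _root_.zero_apply] at h2
    simp only [Matrix.add_apply, Matrix.mul_apply, B, Γ, of_apply, transpose_apply,
      Matrix.zero_apply, ← Finset.sum_add_distrib, P354I.pd]
    simpa only [← Finset.sum_add_distrib] using h2
  have h3 : d.h y * (d.h y)⁻¹ = 1 := mul_eq_one_comm.1 (D.inv hy)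
  have h4 : B = -((d.h y)⁻¹ * Γᵀ + Γ * (d.h y)⁻¹) := by
    have h5 := congrArg (· * (d.h y)⁻¹) h1
    simp only [add_mul, mul_add, mul_assoc, h3, mul_one, zero_mul] at h5
    rw [← mul_assoc (d.h y)⁻¹ (d.h y), D.inv hy, one_mul] at h5
    exact eq_neg_of_add_eq_zero_left h5
  have := congrFun (congrFun h4 j) l
  simpa only [B, Γ, of_apply, Matrix.neg_apply, Matrix.add_apply, Matrix.mul_apply,
    transpose_apply] using this

lemma PDy.mom_y (D : PDy d) {y : X} (hy : y ≠ 0) (i : Fin 3) :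
    mom (d.h y)⁻¹ (fun i j => Fy d i j y) i = -(d.divK i y - P354I.pd i d.trK y) := by
  have k : ∀ j l : Fin 3, Fy d i j y 0 l.succ = P354I.pd i (fun z => d.K z j l) y -
      P354I.pd j (fun z => d.K z l i) y + ∑ m, d.K y i m * d.chr m j l y -
        ∑ m, d.K y j m * d.chr m i l y := by
    intro j l
    rw [y_congr (fun _ hz => D.symK hz l i) hy j]
    simp only [Fy, Ay, Matrix.add_apply, Matrix.sub_apply, of_apply, Matrix.mul_apply,
      Fin.sum_univ_succ (n := 3), blk_00, blk_0s, blk_ss, zero_mul, zero_add]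
  have k1 : P354I.pd i d.trK y = ∑ j, ∑ l, (P354I.pd i (fun z => (d.h z)⁻¹ j l) y * d.K y j l +
      (d.h y)⁻¹ j l * P354I.pd i (fun z => d.K z j l) y) := by
    unfold P354I.Dat.trK
    rw [y_sum _ (fun j => ContDiffOn.sum fun l _ => (D.hi j l).mul (D.1 j l).2) hy]
    refine Finset.sum_congr rfl fun j _ => ?_
    rw [y_sum _ (fun l => (D.hi j l).mul (D.1 j l).2) hy]
    exact Finset.sum_congr rfl fun l _ => y_mul (D.hi j l) (D.1 j l).2 hy i
  simp only [mom, k, k1, D.dhi hy, P354I.Dat.divK, D.chr_sym hy _ _ i, D.symK hy _ i]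
  simp only [Fin.sum_univ_three, D.symhi hy 1 0, D.symhi hy 2 0, D.symhi hy 2 1, D.symK hy 1 0,
    D.symK hy 2 0, D.symK hy 2 1]
  ring

theorem sl2 : SL2 := by
  intro d σ D
  refine ⟨D.toPD σ, fun z => ?_⟩
  obtain ⟨g, sS, sT, TS⟩ := D.gw_eq σ
  have hy := phi_ne σ z
  have hH : (Jm σ z)ᵀ * (pb σ d.h z)⁻¹ * Jm σ z = (1 : ℝ) • (d.h (Phi σ z))⁻¹ := by
    unfold pb
    rw [Matrix.mul_inv_rev, Matrix.mul_inv_rev, ← transpose_nonsing_inv, ← mul_assoc,
      ← transpose_mul, Ji_J, transpose_one, one_mul, mul_assoc, Ji_J, mul_one, one_smul]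
  obtain ⟨k1, k2⟩ := ham_tr (p := (1 : ℝ)⁻¹) (q := 1) (fun i j => Fy d i j (Phi σ z))
    (fun a b => curv (GW (pb σ d.h) (fun z => (pb σ d.h z)⁻¹) (pb σ d.K)) a b z) (Ji_J σ z) hH
    (fun a b => by
      rw [← g, curv_gauge sS sT (D.ap σ) TS, D.curv_ap]
      simp only [Matrix.mul_sum, Matrix.sum_mul, Matrix.mul_smul, Matrix.smul_mul]
      rfl)
  unfold CC
  rw [k1, one_mul, D.ham_y hy]
  simp only [k2, D.mom_y hy, inv_one, one_mul]
  refine and_congr Iff.rfl ⟨fun k i => ?_, fun k a => by simp [k]⟩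
  have h1 : (Jm σ z)⁻¹ *ᵥ (Jm σ z *ᵥ fun i =>
      -(d.divK i (Phi σ z) - P354I.pd i d.trK (Phi σ z))) = (Jm σ z)⁻¹ *ᵥ 0 := by
    congr 1
    funext a
    exact k a
  rw [mulVec_mulVec, Ji_J, one_mulVec, mulVec_zero] at h1
  exact neg_eq_zero.1 (congrFun h1 i)

end Vale.Agent.P354J
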