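import Vale.Agent.P354J.Defs

open scoped ContDiff
open Set Filter Topology Matrix

noncomputable section

namespace Vale.Agent.P354J

open Vale.Agent.P354H

abbrev N3 : Type := Fin 3 → Fin 3 → ℝ

section
variable {Y : Type} [NormedAddCommGroup Y] [NormedSpace ℝ Y] {M : Y → M3} {s : Set Y}

lemma det_smoothOn (h : ∀ i j, ContDiffOn ℝ ∞ (fun y => M y i j) s) :
    ContDiffOn ℝ ∞ (fun y => (M y).det) s := by
  simp only [Matrix.det_fin_three]
  refine (((((?_ : ContDiffOn ℝ ∞ _ s).sub ?_).sub ?_).add ?_).add ?_).sub ?_ <;>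
    exact ((h _ _).mul (h _ _)).mul (h _ _)

lemma inv_smoothOn (h : ∀ i j, ContDiffOn ℝ ∞ (fun y => M y i j) s)
    (hd : ∀ y ∈ s, (M y).det ≠ 0) (i j : Fin 3) : ContDiffOn ℝ ∞ (fun y => (M y)⁻¹ i j) s := by
  simp only [Matrix.inv_def, Ring.inverse_eq_inv', Matrix.smul_apply, smul_eq_mul]
  refine ((det_smoothOn h).inv hd).mul ?_
  simp only [Matrix.adjugate_fin_three]
  fin_cases i <;> fin_cases j <;> simp <;>
    first
      | exact ((h _ _).mul (h _ _)).sub ((h _ _).mul (h _ _))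
      | exact ((h _ _).mul (h _ _)).neg.add ((h _ _).mul (h _ _))

end

/-- The open set on which the frame is a smooth function of the metric. -/
def OO : Set N3 := {H | 0 < H 1 1 ∧ 0 < dg (Matrix.of H) ∧ 0 < (Matrix.of H).det}

lemma sm_entry (i j : Fin 3) : ContDiff ℝ ∞ fun H : N3 => Matrix.of H i j := by
  simp only [of_apply]
  fun_prop

lemma sm_dg : ContDiff ℝ ∞ fun H : N3 => dg (Matrix.of H) := by
  simp only [dg, of_apply]
  fun_prop

lemma sm_det : ContDiff ℝ ∞ fun H : N3 => (Matrix.of H).det :=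
  contDiffOn_univ.1 (det_smoothOn fun i j => (sm_entry i j).contDiffOn)

lemma isOpen_OO : IsOpen OO :=
  (isOpen_lt continuous_const (sm_entry 1 1).continuous).inter
    ((isOpen_lt continuous_const sm_dg.continuous).inter
      (isOpen_lt continuous_const sm_det.continuous))

lemma pos22 {h : M3} (h1 : 0 < h 1 1) (h2 : 0 < dg h) : 0 < h 2 2 := by
  unfold dg at h2
  by_contra k
  nlinarith [sq_nonneg (h 1 2), mul_nonneg h1.le (neg_nonneg.2 (not_lt.1 k))]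

lemma tr_pos {h : M3} (h1 : 0 < h 1 1) (h2 : 0 < dg h) : 0 < h 1 1 + h 2 2 + 2 * √(dg h) := by
  have := pos22 h1 h2
  have := Real.sqrt_nonneg (dg h)
  linarith

lemma rt_pos {h : M3} (h1 : 0 < h 1 1) (h2 : 0 < dg h) : 0 < rt h :=
  mul_pos (Real.sqrt_pos.2 h2) (Real.sqrt_pos.2 (tr_pos h1 h2))

lemma Oh_pos {h : M3} (h2 : 0 < dg h) (h3 : 0 < h.det) : 0 < Oh h :=
  Real.sqrt_pos.2 (div_pos h3 h2)

lemma sm_sq : ContDiffOn ℝ ∞ (fun H : N3 => √(dg (Matrix.of H))) OO :=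
  sm_dg.contDiffOn.sqrt fun _ hH => hH.2.1.ne'

lemma sm_Oh : ContDiffOn ℝ ∞ (fun H : N3 => Oh (Matrix.of H)) OO :=
  (sm_det.contDiffOn.div sm_dg.contDiffOn fun _ hH => hH.2.1.ne').sqrt
    fun _ hH => (div_pos hH.2.2 hH.2.1).ne'

lemma sm_rt : ContDiffOn ℝ ∞ (fun H : N3 => rt (Matrix.of H)) OO :=
  sm_sq.mul ((((sm_entry 1 1).contDiffOn.add (sm_entry 2 2).contDiffOn).add
    (contDiffOn_const.mul sm_sq)).sqrt fun _ hH => (tr_pos hH.1 hH.2.1).ne')

lemma sm_bh1 : ContDiffOn ℝ ∞ (fun H : N3 => bh1 (Matrix.of H)) OO :=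
  (contDiff_const.mul (((sm_entry 2 2).mul (sm_entry 0 1)).sub
    ((sm_entry 1 2).mul (sm_entry 0 2)))).contDiffOn.div sm_dg.contDiffOn fun _ hH => hH.2.1.ne'

lemma sm_bh2 : ContDiffOn ℝ ∞ (fun H : N3 => bh2 (Matrix.of H)) OO :=
  (contDiff_const.mul (((sm_entry 1 1).mul (sm_entry 0 2)).sub
    ((sm_entry 1 2).mul (sm_entry 0 1)))).contDiffOn.div sm_dg.contDiffOn fun _ hH => hH.2.1.ne'

lemma sm_ph11 : ContDiffOn ℝ ∞ (fun H : N3 => ph11 (Matrix.of H)) OO :=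
  (sm_Oh.mul ((sm_entry 2 2).contDiffOn.add sm_sq)).div sm_rt
    fun _ hH => (rt_pos hH.1 hH.2.1).ne'

lemma sm_ph12 : ContDiffOn ℝ ∞ (fun H : N3 => ph12 (Matrix.of H)) OO :=
  ((sm_Oh.mul (sm_entry 1 2).contDiffOn).div sm_rt fun _ hH => (rt_pos hH.1 hH.2.1).ne').neg

lemma sm_ph22 : ContDiffOn ℝ ∞ (fun H : N3 => ph22 (Matrix.of H)) OO :=
  (sm_Oh.mul ((sm_entry 1 1).contDiffOn.add sm_sq)).div sm_rt
    fun _ hH => (rt_pos hH.1 hH.2.1).ne'

lemma sm_Eh (i j : Fin 3) : ContDiffOn ℝ ∞ (fun H : N3 => Eh (Matrix.of H) i j) OO := by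
  fin_cases i <;> fin_cases j
  exacts [contDiffOn_const (c := 1), sm_bh1.div_const 2, sm_bh2.div_const 2,
    contDiffOn_const (c := 0), sm_ph11, sm_ph12, contDiffOn_const (c := 0), sm_ph12, sm_ph22]

lemma detP_h {h : M3} (h1 : 0 < h 1 1) (h2 : 0 < dg h) :
    ph11 h * ph22 h - ph12 h * ph12 h = Oh h ^ 2 / √(dg h) := by
  have s0 := Real.sqrt_pos.2 h2
  have t0 := Real.sqrt_pos.2 (tr_pos h1 h2)
  have s2 := Real.sq_sqrt h2.le
  have t2 := Real.sq_sqrt (tr_pos h1 h2).le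
  unfold ph11 ph22 ph12 rt
  generalize √(h 1 1 + h 2 2 + 2 * √(dg h)) = t at *
  generalize √(dg h) = s at *
  unfold dg at s2
  field_simp
  linear_combination (-Oh h ^ 2) * s2 - Oh h ^ 2 * s * t2

lemma det_Eh (h : M3) : (Eh h).det = ph11 h * ph22 h - ph12 h * ph12 h := by
  simp [Eh, Matrix.det_fin_three]

lemma detE_pos {h : M3} (h1 : 0 < h 1 1) (h2 : 0 < dg h) (h3 : 0 < h.det) :
    0 < ph11 h * ph22 h - ph12 h * ph12 h := by
  rw [detP_h h1 h2]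
  exact div_pos (pow_pos (Oh_pos h2 h3) 2) (Real.sqrt_pos.2 h2)

lemma ph11_pos {h : M3} (h1 : 0 < h 1 1) (h2 : 0 < dg h) (h3 : 0 < h.det) : 0 < ph11 h :=
  div_pos (mul_pos (Oh_pos h2 h3) (add_pos (pos22 h1 h2) (Real.sqrt_pos.2 h2))) (rt_pos h1 h2)

lemma sm_Ehi (i j : Fin 3) : ContDiffOn ℝ ∞ (fun H : N3 => (Eh (Matrix.of H))⁻¹ i j) OO :=
  inv_smoothOn sm_Eh (fun _ hH => by
    rw [det_Eh]; exact (detE_pos hH.1 hH.2.1 hH.2.2).ne') i j

lemma sm_hi (i j : Fin 3) : ContDiffOn ℝ ∞ (fun H : N3 => (Matrix.of H)⁻¹ i j) OO :=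
  inv_smoothOn (fun i j => (sm_entry i j).contDiffOn) (fun _ hH => hH.2.2.ne') i j

lemma Eh_on {h : M3} (hs : ∀ i j, h i j = h j i) (h1 : 0 < h 1 1) (h2 : 0 < dg h)
    (h3 : 0 < h.det) : Eh h * h * (Eh h)ᵀ = Oh h ^ 2 • (1 : M3) := by
  have s0 := Real.sqrt_pos.2 h2
  have t0 := Real.sqrt_pos.2 (tr_pos h1 h2)
  have s2 := Real.sq_sqrt h2.le
  have t2 := Real.sq_sqrt (tr_pos h1 h2).le
  have o2 : Oh h ^ 2 = h.det / dg h := Real.sq_sqrt (div_pos h3 h2).le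
  have d0 := h2.ne'
  have e1 : h 0 1 + (bh1 h / 2 * h 1 1 + bh2 h / 2 * h 1 2) = 0 := by
    unfold bh1 bh2
    field_simp
    unfold dg
    ring
  have e2 : h 0 2 + (bh1 h / 2 * h 1 2 + bh2 h / 2 * h 2 2) = 0 := by
    unfold bh1 bh2
    field_simp
    unfold dg
    ring
  have e0 : h 0 0 + (bh1 h / 2 * h 0 1 + bh2 h / 2 * h 0 2) = Oh h ^ 2 := by
    rw [o2, Matrix.det_fin_three, hs 1 0, hs 2 0, hs 2 1]
    unfold bh1 bh2
    field_simp
    unfold dg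
    ring
  have e3 : (ph11 h * h 1 1 + ph12 h * h 1 2) * ph11 h +
      (ph11 h * h 1 2 + ph12 h * h 2 2) * ph12 h = Oh h ^ 2 ∧
      (ph11 h * h 1 1 + ph12 h * h 1 2) * ph12 h + (ph11 h * h 1 2 + ph12 h * h 2 2) * ph22 h = 0 ∧
      (ph12 h * h 1 1 + ph22 h * h 1 2) * ph12 h +
      (ph12 h * h 1 2 + ph22 h * h 2 2) * ph22 h = Oh h ^ 2 := by
    unfold ph11 ph22 ph12 rt
    generalize √(h 1 1 + h 2 2 + 2 * √(dg h)) = t at *
    generalize √(dg h) = s at *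
    generalize Oh h = o
    unfold dg at s2
    refine ⟨?_, ?_, ?_⟩
    · field_simp
      linear_combination (-o ^ 2 * (h 2 2 + 2 * s)) * s2 - o ^ 2 * s ^ 2 * t2
    · field_simp
      linear_combination (o ^ 2 * h 1 2) * s2
    · field_simp
      linear_combination (-o ^ 2 * (h 1 1 + 2 * s)) * s2 - o ^ 2 * s ^ 2 * t2
  ext i j
  simp only [Matrix.mul_apply, Fin.sum_univ_three, transpose_apply, Matrix.smul_apply]
  fin_cases i <;> fin_cases j <;> simp [Eh, hs 1 0, hs 2 0, hs 2 1]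
  · linear_combination e0 + bh1 h / 2 * e1 + bh2 h / 2 * e2
  · linear_combination ph11 h * e1 + ph12 h * e2
  · linear_combination ph12 h * e1 + ph22 h * e2
  · linear_combination ph11 h * e1 + ph12 h * e2
  · linear_combination e3.1
  · linear_combination e3.2.1
  · linear_combination ph12 h * e1 + ph22 h * e2
  · linear_combination e3.2.1
  · linear_combination e3.2.2

lemma sym_of_posDef {h : M3} (hp : h.PosDef) (i j : Fin 3) : h i j = h j i := by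
  have := hp.1.apply j i
  simpa using this

lemma OO_of_posDef {h : M3} (hp : h.PosDef) : 0 < h 1 1 ∧ 0 < dg h ∧ 0 < h.det := by
  have h1 : 0 < h 1 1 := hp.diag_pos
  refine ⟨h1, ?_, hp.det_pos⟩
  have := hp.dotProduct_mulVec_pos (x := ![0, -h 1 2, h 1 1]) (by
    intro k
    have := congrFun k 2
    simp at this
    exact h1.ne' this)
  simp [dotProduct, mulVec, Fin.sum_univ_three, sym_of_posDef hp 2 1] at this
  unfold dg
  by_contra k
  nlinarith [mul_nonneg h1.le (neg_nonneg.2 (not_lt.1 k))]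

variable {h K : X3 → M3}

lemma PD.oo (D : PD h K) (y : X3) : (h y : N3) ∈ OO := OO_of_posDef (D.pos y).1

lemma PD.smN (D : PD h K) : ContDiff ℝ ∞ (fun y i j => h y i j : X3 → N3) :=
  contDiff_pi.2 fun i => contDiff_pi.2 fun j => D.sh i j

lemma PD.comp (D : PD h K) {F : N3 → ℝ} (hF : ContDiffOn ℝ ∞ F OO) :
    ContDiff ℝ ∞ fun y => F (h y) := hF.comp_contDiff D.smN D.oo

lemma PD.dat (D : PD h K) : Dat h (fun y => (h y)⁻¹) K :=
  ⟨D.sh, fun i j => D.comp (sm_hi i j), D.sK, fun y => sym_of_posDef (D.pos y).1,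
    fun y i j => ((D.pos y).2.apply j i), fun y =>
      Matrix.nonsing_inv_mul _ (D.oo y).2.2.ne'.isUnit⟩

lemma PD.frm (D : PD h K) :
    Frm h (fun y => Oh (h y)) (fun y => Eh (h y)) (fun y => (Eh (h y))⁻¹) :=
  ⟨D.comp sm_Oh, fun i j => D.comp (sm_Eh i j), fun i j => D.comp (sm_Ehi i j),
    fun y => (Oh_pos (D.oo y).2.1 (D.oo y).2.2).ne', fun y => Matrix.nonsing_inv_mul _ (by
      rw [det_Eh]
      exact (detE_pos (D.oo y).1 (D.oo y).2.1 (D.oo y).2.2).ne'.isUnit),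
    fun y => Eh_on (sym_of_posDef (D.pos y).1) (D.oo y).1 (D.oo y).2.1 (D.oo y).2.2⟩

end Vale.Agent.P354J
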