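import Vale.Agent.P354J.Sl2

open scoped ContDiff
open Set Filter Topology Matrix

noncomputable section

namespace Vale.Agent.P354J

open Vale.Agent.P354H Vale.Agent.P354C Vale.Agent.P354C.Ix
open Vale.Agent.P354n (R4)

/-- The entries of the frame. -/
def isF : Ix → Bool
  | .O | .b1 | .b2 | .P11 | .P12 | .P21 | .P22 => true
  | _ => false

lemma isF_of {U U' : Ix → ℝ} (h : ∀ i ∈ [O, b1, b2, P11, P12, P21, P22], U i = U' i) (i : Ix)
    (hi : isF i = true) : U i = U' i := by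
  refine h i ?_
  cases i <;> first | decide | exact absurd hi (by decide)

lemma Eu_congr {U U' : Ix → ℝ} (h : ∀ i, isF i = true → U i = U' i) : Eu U = Eu U' := by
  unfold Eu
  rw [h b1 rfl, h b2 rfl, h P11 rfl, h P12 rfl, h P21 rfl, h P22 rfl]

lemma Cu_congr {U U' : Ix → ℝ} (h : ∀ i, isF i = true → U i = U' i) : Cu U = Cu U' := by
  unfold Cu th detP
  rw [h b1 rfl, h b2 rfl, h P11 rfl, h P12 rfl, h P21 rfl, h P22 rfl]

lemma TT_eq {U U' : Ix → ℝ} {d d' : Fin 3 → Ix → ℝ} (hP : detP U ≠ 0) (c : Con1 U d)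
    (c' : Con1 U' d') (h : ∀ i, isF i = true → U i = U' i)
    (h' : ∀ s i, isF i = true → d s i = d' s i) (s t : Fin 3) (m : Fin 4) :
    TT U s t m = TT U' s t m := by
  have k : ∀ s, Eu' (d s) = Eu' (d' s) := fun s => by
    unfold Eu'
    rw [h' s b1 rfl, h' s b2 rfl, h' s P11 rfl, h' s P12 rfl, h' s P21 rfl, h' s P22 rfl]
  have k1 : E U' = E U := by
    unfold E
    rw [h b1 rfl, h b2 rfl, h P11 rfl, h P12 rfl, h P21 rfl, h P22 rfl]
  have k2 : ∀ μ, ∑ m, TT U s t m * E U m μ = ∑ m, TT U' s t m * E U m μ := fun μ => by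
    rw [c.1, k, k, ← c'.1, k1]
  have e0 := k2 0
  have e1 := k2 1
  have e2 := k2 2
  have e3 := k2 3
  simp [E, Fin.sum_univ_four] at e0 e1 e2 e3
  have f0 : TT U s t 0 = TT U' s t 0 := by linarith
  have f1 : TT U s t 1 = TT U' s t 1 := by linarith
  rw [f0] at e2 e3
  fin_cases m
  · exact f0
  · exact f1
  · refine mul_left_cancel₀ hP ?_
    show detP U * TT U s t 2 = detP U * TT U' s t 2
    unfold detP
    linear_combination U P22 * e2 - U P21 * e3
  · refine mul_left_cancel₀ hP ?_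
    show detP U * TT U s t 3 = detP U * TT U' s t 3
    unfold detP
    linear_combination U P11 * e3 - U P12 * e2

/-- The connection is determined by the frame and the second fundamental form: the differences are
linear in the difference k of kap. -/
theorem diff1 {U U' : Ix → ℝ} {d d' : Fin 3 → Ix → ℝ} (hP : detP U ≠ 0) (hO : U O ≠ 0)
    (c : Con1 U d) (c' : Con1 U' d') (h : ∀ i, isF i = true → U i = U' i)
    (h' : ∀ s i, isF i = true → d s i = d' s i) (k : M3) (hk : k = kap U' - kap U) :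
    (U' .om - U .om = k 0 0 / 2 + k 0 0 / 2 ∧ U' omb - U omb = k 0 0 / 2 + k 0 0 / 2 ∧
      U' p1 - U p1 = k 1 0 / 2 ∧ U' q1 - U q1 = -(k 1 0 / 2) ∧ U' p2 - U p2 = k 2 0 / 2 ∧
      U' q2 - U q2 = -(k 2 0 / 2)) ∧ (U' r0 = U r0 ∧ U' r1 = U r1 ∧ U' r2 = U r2) ∧
    (U' A1 - U A1 = -k 0 1 ∧ U' A2 - U A2 = -k 0 2 ∧ U' B1 - U B1 = k 0 1 ∧ U' B2 - U B2 = k 0 2) ∧
    (U' X11 - U X11 = k 1 1 / 2 ∧ U' X12 - U X12 = k 2 1 / 2 ∧ U' X21 - U X21 = k 1 2 / 2 ∧
      U' X22 - U X22 = k 2 2 / 2) ∧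
    (U' Y11 - U Y11 = k 1 1 / 2 ∧ U' Y12 - U Y12 = k 2 1 / 2 ∧ U' Y21 - U Y21 = k 1 2 / 2 ∧
      U' Y22 - U Y22 = k 2 2 / 2) ∧ k 0 1 = k 1 0 ∧ k 0 2 = k 2 0 ∧ k 1 2 = k 2 1 := by
  have t := TT_eq hP c c' h h'
  have s : ∀ s, sgT U s = sgT U' s := fun s => mul_left_cancel₀ hO (by
    rw [← c.2, h' s O rfl, c'.2, h O rfl])
  have s0 := s 0
  have s1 := s 1
  have s2 := s 2
  have a0 := t 0 1 0
  have a1 := t 0 1 1
  have a2 := t 0 1 2
  have a3 := t 0 1 3
  have b0 := t 0 2 0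
  have b1 := t 0 2 1
  have b2 := t 0 2 2
  have b3 := t 0 2 3
  have c0 := t 1 2 0
  have c1 := t 1 2 1
  have c2 := t 1 2 2
  have c3 := t 1 2 3
  simp [sgT] at s0 s1 s2
  simp [TT, GT_0, GT_1, GT_2, tang, Fin.sum_univ_four] at a0 a1 a2 a3 b0 b1 b2 b3 c0 c1 c2 c3
  subst hk
  simp only [kap, Matrix.sub_apply, of_apply, cons_val', cons_val_zero, cons_val_one, cons_val_two,
    cons_val_fin_one, empty_val', Nat.succ_eq_add_one, Nat.reduceAdd, tail_cons, head_cons,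
    head_fin_const]
  refine ⟨⟨?_, ?_, ?_, ?_, ?_, ?_⟩, ⟨?_, ?_, ?_⟩, ⟨?_, ?_, ?_, ?_⟩, ⟨?_, ?_, ?_, ?_⟩,
    ⟨?_, ?_, ?_, ?_⟩, ?_, ?_, ?_⟩ <;> linarith

lemma uniq1 {U U' : Ix → ℝ} {d d' : Fin 3 → Ix → ℝ} (hP : detP U ≠ 0) (hO : U O ≠ 0)
    (c : Con1 U d) (c' : Con1 U' d') (h : ∀ i, isF i = true → U i = U' i)
    (h' : ∀ s i, isF i = true → d s i = d' s i) (hk : kap U = kap U') (i : Ix)
    (hi : isW i = false) : U i = U' i := by
  obtain ⟨⟨k1, k2, k3, k4, k5, k6⟩, ⟨k7, k8, k9⟩, ⟨k10, k11, k12, k13⟩, ⟨k14, k15, k16, k17⟩,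
    ⟨k18, k19, k20, k21⟩, -⟩ := diff1 hP hO c c' h h' 0 (by rw [hk, sub_self])
  simp only [Matrix.zero_apply, zero_div, add_zero, neg_zero, sub_eq_zero] at *
  cases i <;> first
    | exact h _ rfl
    | (symm; assumption)
    | exact absurd hi (by decide)

lemma uniq2 {U U' : Ix → ℝ} (h : ∀ s t, WT U s t = WT U' s t) (i : Ix) (hi : isW i = true) :
    U i = U' i := by
  have k1 := fun i j => congrFun (congrFun (h 0 1) i) j
  have k2 := fun i j => congrFun (congrFun (h 0 2) i) j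
  have k3 := fun i j => congrFun (congrFun (h 1 2) i) j
  rw [WT_01, WT_01] at k1
  rw [WT_02, WT_02] at k2
  rw [WT_12, WT_12] at k3
  have a1 := k1 0 2
  have a2 := k1 0 3
  have a3 := k1 1 2
  have a4 := k1 1 3
  have a5 := k3 0 0
  have a6 := k3 0 2
  have a7 := k3 0 3
  have a8 := k3 1 2
  have a9 := k3 1 3
  have a10 := k3 3 2
  simp at a1 a2 a3 a4 a5 a6 a7 a8 a9 a10
  cases i <;> first
    | linarith
    | exact absurd hi (by decide)

lemma kap_eq_of {U U' : Ix → ℝ} (hP : detP U ≠ 0) (hO : U O ≠ 0)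
    (h : ∀ i, isF i = true → U i = U' i)
    (hK : ∀ a b, Kf U (e a) (e b) = Kf U' (e a) (e b)) : kap U = kap U' := by
  have k : Cu U * kap U * (Cu U)ᵀ = Cu U * kap U' * (Cu U)ᵀ := by
    ext a b
    have := hK a b
    rw [Kf_eq, Kf_eq, ← h O rfl, ← Cu_congr h] at this
    exact mul_left_cancel₀ hO this
  have k1 : Eu U * Cu U = 1 := mul_eq_one_comm.1 (Cu_Eu hP)
  rw [← conj_cancel k1 (kap U), k, conj_cancel k1]

lemma DT_congr {u u' : X3 → Ix → ℝ} {y : X3} (hE : Eu (u y) = Eu (u' y)) {i : Ix}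
    (h : ∀ᶠ z in 𝓝 y, u z i = u' z i) (s : Fin 3) : DT (dsl u y) s i = DT (dsl u' y) s i := by
  rw [DT_dsl, DT_dsl]
  simp only [Pi.smul_apply, fd, pd, hE]
  rw [Filter.EventuallyEq.fderiv_eq h]

/-- Uniqueness of the connection on the slice. -/
lemma uq1 {u u' : X3 → Ix → ℝ} {D : Set X3} (hD : IsOpen D)
    (h : ∀ y ∈ D, detP (u y) ≠ 0 ∧ u y O ≠ 0 ∧ Con1 (u y) (DT (dsl u y)) ∧
      Con1 (u' y) (DT (dsl u' y)) ∧ (∀ i, isF i = true → u y i = u' y i) ∧
      ∀ a b, Kf (u y) (e a) (e b) = Kf (u' y) (e a) (e b)) :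
    ∀ y ∈ D, (∀ i, isW i = false → u y i = u' y i) ∧
      ∀ s i, isW i = false → DT (dsl u y) s i = DT (dsl u' y) s i := by
  have k : ∀ y ∈ D, ∀ i, isW i = false → u y i = u' y i := by
    intro y hy
    obtain ⟨h1, h2, h3, h4, h5, h6⟩ := h y hy
    exact uniq1 h1 h2 h3 h4 h5 (fun s i hi => DT_congr (Eu_congr h5)
      ((hD.eventually_mem hy).mono fun z hz => (h z hz).2.2.2.2.1 i hi) s) (kap_eq_of h1 h2 h5 h6)
  exact fun y hy => ⟨k y hy, fun s i hi => DT_congr (Eu_congr (h y hy).2.2.2.2.1)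
    ((hD.eventually_mem hy).mono fun z hz => k z hz i hi) s⟩

theorem uq : UQ := by
  intro u u' D hD h y hy
  obtain ⟨k1, k2⟩ := uq1 hD (fun y hy => by
    obtain ⟨h1, h2, h3, h4, h5, h6⟩ := h y hy
    exact ⟨h1, h2, ((constr_iff _ _).1 h3).1, ((constr_iff _ _).1 h4).1, isF_of h5, h6⟩) y hy
  obtain ⟨-, -, h3, h4, -⟩ := h y hy
  funext i
  cases hi : isW i
  · exact k1 i hi
  · refine uniq2 (fun s t => ?_) i hi
    ext j l
    have := curT_congr k1 k2 s t j l
    rwa [((constr_iff _ _).1 h3).2, ((constr_iff _ _).1 h4).2, zero_add, zero_add] at this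

lemma sqrt2 {a b c a' b' c' : ℝ} (ha : 0 < a) (hd : 0 < a * c - b * b) (ha' : 0 < a')
    (hd' : 0 < a' * c' - b' * b') (e1 : a * a + b * b = a' * a' + b' * b')
    (e2 : a * b + b * c = a' * b' + b' * c') (e3 : b * b + c * c = b' * b' + c' * c') :
    a = a' ∧ b = b' ∧ c = c' := by
  have hc : 0 < c := by
    by_contra k
    nlinarith [mul_self_nonneg b, mul_nonneg ha.le (neg_nonneg.2 (not_lt.1 k))]
  have hc' : 0 < c' := by
    by_contra k
    nlinarith [mul_self_nonneg b', mul_nonneg ha'.le (neg_nonneg.2 (not_lt.1 k))]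
  have d : a * c - b * b = a' * c' - b' * b' := by
    refine (pow_left_inj₀ hd.le hd'.le two_ne_zero).1 ?_
    linear_combination (b * b + c * c) * e1 + (a' * a' + b' * b') * e3 -
      (a * b + b * c + (a' * b' + b' * c')) * e2
  have t : a + c = a' + c' := by
    refine (pow_left_inj₀ (by positivity) (by positivity) two_ne_zero).1 ?_
    linear_combination e1 + e3 + 2 * d
  have t0 : a + c ≠ 0 := by positivity
  refine ⟨mul_left_cancel₀ t0 ?_, mul_left_cancel₀ t0 ?_, mul_left_cancel₀ t0 ?_⟩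
  · linear_combination e1 + d - a' * t
  · linear_combination e2 - b' * t
  · linear_combination e3 + d - c' * t

theorem fu : FU := by
  intro U U' hO h1 hd hs hO' h1' hd' hs' h
  have key : ∀ V : Ix → ℝ, 0 < detP V → ∃ x y z β γ : ℝ, x = V O * V P22 / detP V ∧
      y = -(V O * V P12 / detP V) ∧ z = V O * V P11 / detP V ∧ β = V b1 / 2 ∧ γ = V b2 / 2 ∧
      (V P12 = V P21 → hf V (e 1) (e 1) = x * x + y * y ∧ hf V (e 1) (e 2) = x * y + y * z ∧
        hf V (e 2) (e 2) = y * y + z * z ∧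
        hf V (e 0) (e 1) = -(β * (x * x + y * y) + γ * (x * y + y * z)) ∧
        hf V (e 0) (e 2) = -(β * (x * y + y * z) + γ * (y * y + z * z)) ∧
        hf V (e 0) (e 0) = V O ^ 2 + (β * (β * (x * x + y * y) + γ * (x * y + y * z)) +
          γ * (β * (x * y + y * z) + γ * (y * y + z * z))) ∧
        x * z - y * y = V O ^ 2 / detP V) := by
    intro V hV
    refine ⟨_, _, _, _, _, rfl, rfl, rfl, rfl, rfl, fun s => ?_⟩
    have := hV.ne'
    simp only [hf, eta, th, e, ← s]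
    simp
    refine ⟨?_, ?_, ?_, ?_, ?_, ?_, ?_⟩ <;> field_simp
    all_goals first
      | ring1
      | (simp only [detP, ← s]; ring1)
  obtain ⟨x, y, z, β, γ, hx, hy, hz, hβ, hγ, k⟩ := key U hd
  obtain ⟨x', y', z', β', γ', hx', hy', hz', hβ', hγ', k'⟩ := key U' hd'
  obtain ⟨k1, k2, k3, k4, k5, k6, k7⟩ := k hs
  obtain ⟨k1', k2', k3', k4', k5', k6', k7'⟩ := k' hs'
  rw [h, k1'] at k1
  rw [h, k2'] at k2
  rw [h, k3'] at k3
  rw [h, k4'] at k4
  rw [h, k5'] at k5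
  rw [h, k6'] at k6
  have z0 : 0 < z := by rw [hz]; positivity
  have z0' : 0 < z' := by rw [hz']; positivity
  have d0 : 0 < z * x - y * y := by rw [mul_comm, k7]; positivity
  have d0' : 0 < z' * x' - y' * y' := by rw [mul_comm, k7']; positivity
  obtain ⟨ez, ey, ex⟩ := sqrt2 z0 d0 z0' d0' (by linarith) (by linarith) (by linarith)
  subst ex ey ez
  have d2 : (z * x - y * y) ^ 2 ≠ 0 := by positivity
  have eβ : β = β' := by
    refine mul_left_cancel₀ d2 ?_
    linear_combination (y * y + z * z) * k4 - (x * y + y * z) * k5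
  have eγ : γ = γ' := by
    refine mul_left_cancel₀ d2 ?_
    linear_combination (x * x + y * y) * k5 - (x * y + y * z) * k4
  subst eβ eγ
  have eO : U O = U' O := (pow_left_inj₀ hO.le hO'.le two_ne_zero).1 (by linarith)
  have eD : detP U = detP U' := by
    rw [k7, eO] at k7'
    field_simp at k7'
    exact k7'.symm
  rw [eO, eD] at hx hy hz
  have c : ∀ p q : ℝ, U' O * p / detP U' = U' O * q / detP U' → p = q := by
    intro p q k
    field_simp at k
    exact k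
  have e11 := c _ _ (hz.symm.trans hz')
  have e12 := c _ _ (neg_injective (hy.symm.trans hy'))
  have e22 := c _ _ (hx.symm.trans hx')
  intro i hi
  simp only [List.mem_cons, List.not_mem_nil, or_false] at hi
  rcases hi with rfl | rfl | rfl | rfl | rfl | rfl | rfl
  exacts [eO, by linarith, by linarith, e11, e12, by rw [← hs, ← hs', e12], e22]

theorem cv : CV := by
  intro h K D u S hS hu y hy
  have s := (sl1 h K D).2
  obtain ⟨k1, k2⟩ := uq1 (u := u) (u' := U0 h K) hS (fun y hy => by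
    obtain ⟨h1, h2, h3, h4, h5, h6⟩ := hu y hy
    obtain ⟨s1, s2, s3, s4, s5, -⟩ := s y
    exact ⟨h3.ne', h1.ne', ((constr_iff _ _).1 h6).1, D.con0 y,
      isF_of (fu _ _ h1 h2 h3 h4 s1 s2 s3 s4 fun a b => (h5 a b).1.trans (s5 a b).1.symm),
      fun a b => (h5 a b).2.trans (s5 a b).2.symm⟩) y hy
  have c := ((constr_iff _ _).1 (hu y hy).2.2.2.2.2).2
  have c1 := D.curT0 (U := u y) (dU := dsl u y) y (fun i hi => (k1 i hi).trans (u2_of _ _ hi))
    (fun s i hi => (k2 s i hi).trans (DT_U0 y s i hi))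
  have cc : CC h K y := by
    rw [D.cc_iff]
    refine (weyl_iff (D.alg y) (u y) (fun s t => (cT s * cT t) • (Zi * Fh h K s t y * Z))
      fun _ _ => rfl).1 fun s t => ?_
    ext j l
    have := c s t j l
    rwa [c1, sub_eq_zero] at this
  refine ⟨funext fun i => ?_, cc⟩
  cases hi : isW i
  · exact k1 i hi
  · refine uniq2 (fun r t => ?_) i hi
    ext j l
    have := curT_congr k1 k2 r t j l
    rwa [c, ((constr_iff _ _).1 ((s y).2.2.2.2.2.1 cc)).2, zero_add, zero_add] at this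

lemma th_sum {U : Ix → ℝ} (hP : detP U ≠ 0) (c : Fin 4 → ℝ) : th U (∑ k, c k • fr U k) = c := by
  funext j
  fin_cases j <;> simp [th, fr, P354C.vec, E, Fin.sum_univ_four]
  all_goals
    field_simp
    try simp only [detP]
    ring

lemma th_nU {U : Ix → ℝ} (hP : detP U ≠ 0) :
    th U (nU U) = ![(2 * U O)⁻¹, (2 * U O)⁻¹, 0, 0] := by
  rw [← th_sum hP ![(2 * U O)⁻¹, (2 * U O)⁻¹, 0, 0]]
  congr 1
  simp [nU, Fin.sum_univ_four]

theorem ind : IND := by
  intro U p hP hO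
  refine ⟨?_, fun a b => ⟨?_, ?_, rfl, ?_⟩⟩
  · simp only [met, th_nU hP, eta]
    simp
    field_simp
    ring
  · simp only [met, th_nU hP, eta, th_0, th_1]
    simp
  · simp only [met, th_nU hP, eta, th_0, th_1]
    simp
  · simp only [met, con, th_nU hP, th_sum hP, eta, th_0, th_1, Kf]
    simp only [fderiv_fun_const, Pi.zero_apply, _root_.zero_apply, zero_add, mul_add,
      add_mul, Finset.sum_add_distrib]
    simp
    field_simp
    ring

end Vale.Agent.P354J
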