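import Vale.Agent.P354J.Sl

open scoped ContDiff
open Set Filter Topology Matrix

noncomputable section

namespace Vale.Agent.P354J

open Vale.Agent.P354H Vale.Agent.P354C Vale.Agent.P354C.Ix
open Vale.Agent.P354n (R4)

lemma Gam_congr {U U' : Ix → ℝ} (h : ∀ i, isW i = false → U i = U' i) : Gam U = Gam U' := by
  funext i
  unfold Gam
  rw [h .om rfl, h p1 rfl, h p2 rfl, h omb rfl, h q1 rfl, h q2 rfl, h r0 rfl, h r1 rfl, h r2 rfl,
    h A1 rfl, h A2 rfl, h X11 rfl, h X12 rfl, h X21 rfl, h X22 rfl, h B1 rfl, h B2 rfl,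
    h Y11 rfl, h Y12 rfl, h Y21 rfl, h Y22 rfl]

lemma GT_congr {U U' : Ix → ℝ} (h : ∀ i, isW i = false → U i = U' i) : GT U = GT U' := by
  funext s
  unfold GT
  rw [Gam_congr h]

lemma curT_congr {U U' : Ix → ℝ} {dU dU' : Fin 4 → Ix → ℝ} (h : ∀ i, isW i = false → U i = U' i)
    (h' : ∀ s i, isW i = false → DT dU s i = DT dU' s i) (s t : Fin 3) (j k : Fin 4) :
    curT U dU s t j k + WT U s t j k = curT U' dU' s t j k + WT U' s t j k := by
  rw [curT_eq, curT_eq, GT_congr (h' s), GT_congr (h' t)]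
  unfold TT
  rw [GT_congr h, Gam_congr h]
  ring

/-- The form d log O on the vectors l - n, e2, e3. -/
def sgT (U : Ix → ℝ) : Fin 3 → ℝ := ![U .om - U omb, U p1 + U q1, U p2 + U q2]

/-- The first order part of the constraints. -/
def Con1 (U : Ix → ℝ) (d : Fin 3 → Ix → ℝ) : Prop :=
  (∀ s t μ, ∑ m, TT U s t m * E U m μ =
    up (fun j => cT t * Eu' (d s) t j - cT s * Eu' (d t) s j) μ) ∧ ∀ s, d s O = U O * sgT U s

lemma constr_iff (U : Ix → ℝ) (dU : Fin 4 → Ix → ℝ) :
    Constr U dU ↔ Con1 U (DT dU) ∧ ∀ s t j k, curT U dU s t j k = 0 := by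
  have k : ∀ s, ∑ x, tang s x * (dU x O - U O * sg U x) = DT dU s O - U O * sgT U s := by
    intro s
    rw [DT_apply]
    fin_cases s <;> simp [tang, sg, sgT, Fin.sum_univ_four]
    ring
  constructor
  · intro h
    refine ⟨⟨fun s t μ => ?_, fun s => ?_⟩, h.cur⟩
    · have := h.tor s t μ
      rwa [torT_eq, sub_eq_zero] at this
    · have := h.dO s
      rwa [k, sub_eq_zero] at this
  · rintro ⟨⟨h1, h2⟩, h3⟩
    refine ⟨fun s t μ => ?_, fun s => ?_, h3⟩
    · rw [torT_eq, h1, sub_self]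
    · rw [k, h2, sub_self]

lemma constr_congr {U : Ix → ℝ} {dU dU' : Fin 4 → Ix → ℝ} (h : DT dU = DT dU') :
    Constr U dU ↔ Constr U dU' := by
  rw [constr_iff, constr_iff, h]
  simp only [curT_eq, h]

theorem dslThm : DSL := by
  intro U t y hU
  refine constr_congr (funext fun s => ?_)
  rw [DT_dsl]
  funext i
  have k : ∀ j, pd j (fun z => sl U t z i) y = fderiv ℝ (fun z => U z i) (t, y) (0, e j) := by
    intro j
    have h1 : HasFDerivAt (fun z : X3 => ((t, z) : R4)) (ContinuousLinearMap.inr ℝ ℝ X3) y :=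
      hasFDerivAt_prodMk_right t y
    have h2 := ((hU i).hasFDerivAt.comp y h1).fderiv
    unfold pd
    exact congrFun (congrArg DFunLike.coe h2) (e j)
  simp only [DT_apply, Pi.smul_apply, fd, k, dfr, smul_eq_mul, Finset.mul_sum, ← mul_assoc]
  simp only [← smul_eq_mul (a := tang s _), ← smul_eq_mul (a := cT s * _), ← map_smul, ← map_sum]
  congr 1
  fin_cases s <;>
    simp [tang, cT, Eu, fr, P354C.vec, E, e, sl, Fin.sum_univ_four, Fin.sum_univ_three] <;>
    ring_nf <;> simp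

variable {h K : X3 → M3}

lemma PD.con1 (D : PD h K) (y : X3) : Con1 (U1 h K y) (DT (dsl (U1 h K) y)) := by
  have c := D.cart
  refine ⟨fun s t μ => ?_, fun s => ?_⟩
  · have k : ∀ s t j, Eu' (DT (dsl (U1 h K) y) s) t j =
        cT s * fd (fun y => Eh (h y)) s (fun z => Eh (h z) t j) y := by
      intro s t j
      let L : (Ix → ℝ) →ₗ[ℝ] ℝ :=
        { toFun := fun U => Eu' U t j
          map_add' := fun U V => by fin_cases t <;> fin_cases j <;> simp [Eu'] <;> ring
          map_smul' := fun c U => by fin_cases t <;> fin_cases j <;> simp [Eu'] <;> ring }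
      have h1 : Eu' (DT (dsl (U1 h K) y) s) t j = L (DT (dsl (U1 h K) y) s) := rfl
      rw [h1, DT_dsl, map_smul, fd_lin L _ D.smU1, smul_eq_mul]
      congr 1
      fin_cases t <;> fin_cases j <;> first
        | rfl
        | exact (by simp [fd, L, Eu', Eh, pd_const])
    simp only [TT_conj (D.gt y), mul_assoc (cT s * cT t), ← Finset.mul_sum, k]
    rw [Zi_E _ (fun c => Gh h K s y c t.succ - Gh h K t y c s.succ)
      (sub_eq_zero.2 (c.t0 s t y))]
    simp only [Eu_U1, ← c.t3]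
    fin_cases μ <;> simp [up] <;> ring
  · have k := congrFun (congrFun (eq_cof (D.co y s)) 0) 0
    have o := D.frm.ne y
    rw [DT_dsl]
    simp only [cof, of_apply, cons_val', cons_val_zero] at k
    have k1 : sgT (U1 h K y) s = cT s * Gh h K s y 0 0 := by
      fin_cases s <;> simp [sgT, U1, u1, cT] <;> ring
    rw [k1, k]
    show cT s * fd (fun y => Eh (h y)) s (fun y => Oh (h y)) y = Oh (h y) * _
    field_simp

lemma DT_U0 (y : X3) (s : Fin 3) (i : Ix) (hi : isW i = false) :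
    DT (dsl (U0 h K) y) s i = DT (dsl (U1 h K) y) s i := by
  rw [DT_dsl, DT_dsl]
  simp only [Pi.smul_apply, U0, u2_of _ _ hi]
  rfl

lemma Con1.congr {U U' : Ix → ℝ} {d d' : Fin 3 → Ix → ℝ} (c : Con1 U d)
    (h : ∀ i, isW i = false → U' i = U i) (h' : ∀ s i, isW i = false → d' s i = d s i) :
    Con1 U' d' := by
  have k : ∀ s, Eu' (d' s) = Eu' (d s) := fun s => by
    unfold Eu'
    rw [h' s b1 rfl, h' s b2 rfl, h' s P11 rfl, h' s P12 rfl, h' s P21 rfl, h' s P22 rfl]
  have k1 : E U' = E U := by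
    unfold E
    rw [h b1 rfl, h b2 rfl, h P11 rfl, h P12 rfl, h P21 rfl, h P22 rfl]
  refine ⟨fun s t μ => ?_, fun s => ?_⟩
  · unfold TT
    rw [GT_congr h, k1, k, k]
    exact c.1 s t μ
  · unfold sgT
    rw [h' s O rfl, h O rfl, h .om rfl, h omb rfl, h p1 rfl, h p2 rfl, h q1 rfl, h q2 rfl]
    exact c.2 s

lemma PD.con0 (D : PD h K) (y : X3) : Con1 (U0 h K y) (DT (dsl (U0 h K) y)) :=
  (D.con1 y).congr (fun _ hi => u2_of _ _ hi) (DT_U0 y)

lemma PD.detP_pos (D : PD h K) (y : X3) : 0 < detP (U0 h K y) :=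
  detE_pos (D.oo y).1 (D.oo y).2.1 (D.oo y).2.2

lemma PD.Cu_eq (D : PD h K) (y : X3) : Cu (U0 h K y) = (Eh (h y))⁻¹ :=
  (Matrix.inv_eq_left_inv (Cu_Eu (D.detP_pos y).ne')).symm

lemma conj_cancel {C E : M3} (hC : C * E = 1) (M : M3) : C * (E * M * Eᵀ) * Cᵀ = M := by
  rw [← mul_assoc, ← mul_assoc, hC, one_mul, mul_assoc, ← transpose_mul, hC, transpose_one,
    mul_one]

lemma PD.kap_eq (D : PD h K) (y : X3) :
    kap (U0 h K y) = (Oh (h y))⁻¹ • (Eh (h y) * K y * (Eh (h y))ᵀ) := by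
  ext s t
  exact (kap_u1 (h y) (D.co y) s t).trans (om_0s s t y)

lemma PD.ind (D : PD h K) (y : X3) : Ind (U0 h K y) (h y) (K y) := by
  intro a b
  rw [hf_eq, Kf_eq, D.kap_eq, D.Cu_eq]
  have k := conj_cancel (D.frm.inv y)
  have o := D.frm.ne y
  constructor
  · have := k (h y)
    rw [D.frm.on, Matrix.mul_smul, mul_one, Matrix.smul_mul] at this
    exact congrFun (congrFun this a) b
  · rw [Matrix.mul_smul, Matrix.smul_mul, k, Matrix.smul_apply, smul_eq_mul, ← mul_assoc]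
    show Oh (h y) * _ * _ = _
    rw [mul_inv_cancel₀ o, one_mul]

lemma PD.cc_iff (D : PD h K) (y : X3) :
    CC h K y ↔ ham 1 (fun a b => Fh h K a b y) = 0 ∧ ∀ a, mom 1 (fun a b => Fh h K a b y) a = 0 :=
  (D.frm.traces D.dat y).symm

lemma PD.curT0 (D : PD h K) {U : Ix → ℝ} {dU : Fin 4 → Ix → ℝ} (y : X3)
    (h1 : ∀ i, isW i = false → U i = U1 h K y i)
    (h2 : ∀ s i, isW i = false → DT dU s i = DT (dsl (U1 h K) y) s i) (s t : Fin 3) (j k : Fin 4) :
    curT U dU s t j k = ((cT s * cT t) • (Zi * Fh h K s t y * Z)) j k - WT U s t j k := by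
  have := curT_congr h1 h2 s t j k
  rw [D.curT1, U1, WT_u1, Matrix.zero_apply, add_zero] at this
  rw [← this]
  ring

theorem sl1 : SL1 := by
  intro h K D
  refine ⟨D.smU0, fun y => ⟨Oh_pos (D.oo y).2.1 (D.oo y).2.2,
    ph11_pos (D.oo y).1 (D.oo y).2.1 (D.oo y).2.2, D.detP_pos y, rfl, D.ind y, ?_⟩⟩
  have w := weyl_iff (D.alg y) (U0 h K y) (fun s t => (cT s * cT t) • (Zi * Fh h K s t y * Z))
    fun _ _ => rfl
  have c := D.curT0 (U := U0 h K y) y (fun _ hi => u2_of _ _ hi) (DT_U0 y)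
  rw [D.cc_iff, constr_iff]
  constructor
  · intro k
    refine ⟨D.con0 y, fun s t j l => ?_⟩
    have := w.2 (by simp only [← D.curT1]; rfl) (by simp only [← D.curT1]; rfl)
      (by simp only [← D.curT1]; rfl) (by simp only [← D.curT1]; rfl)
      (by simp only [← D.curT1]; rfl) (by simp only [← D.curT1]; rfl)
      (by simp only [← D.curT1]; rfl) (by simp only [← D.curT1]; rfl)
      (by simp only [← D.curT1]; rfl) (by simp only [← D.curT1]; rfl) k.1 k.2 s t
    rw [c, this, sub_self]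
  · intro k
    refine w.1 fun s t => ?_
    ext j l
    have := k.2 s t j l
    rw [c, sub_eq_zero] at this
    exact this

end Vale.Agent.P354J
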