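import Vale.Agent.P354J.Pull
import Vale.Agent.P354J.Sl2
import Vale.Agent.P354JP.Main

open scoped ContDiff
open Set Filter Topology Matrix

noncomputable section

namespace Vale.Agent.P354J

open Vale.Agent.P354H Vale.Agent.P354C Vale.Agent.P354C.Ix
open Vale.Agent.P354I (X)

section
variable {D E : Type} [NormedAddCommGroup E] [NormedSpace ℝ E] {J : D → X3 → E} {Q : Set E}
  {k : ℕ}

lemma Tame.pi {ι : Type} [Fintype ι] {T : D → X3 → ι → ℝ}
    (h : ∀ i, Tame J Q k fun d y => T d y i) : Tame J Q k T := by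
  classical
  refine (Tame.sum Finset.univ (T := fun i d y => T d y i • (Pi.single i (1 : ℝ) : ι → ℝ))
    fun i _ => (h i).smul (Tame.const _)).congr fun d y => ?_
  ext j
  simp [Pi.single_apply]

lemma Tame.half {T : D → X3 → ℝ} (h : Tame J Q k T) : Tame J Q k fun d y => T d y / 2 :=
  h.comp (F := fun p : ℝ => p / 2) (by fun_prop)

lemma Tame.lin {ι : Type} [Fintype ι] (L : (ι → ℝ) →ₗ[ℝ] ℝ) {T : D → X3 → ι → ℝ}
    (h : ∀ i, Tame J Q k fun d y => T d y i) : Tame J Q k fun d y => L (T d y) :=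
  (Tame.pi h).comp (LinearMap.toContinuousLinearMap L).contDiff

/-- Tame fields of matrices. -/
def MT {m n : Type} (J : D → X3 → E) (Q : Set E) (k : ℕ) (M : D → X3 → Matrix m n ℝ) : Prop :=
  ∀ a b, Tame J Q k fun d y => M d y a b

lemma MT.mul {l m n : Type} [Fintype m] {M : D → X3 → Matrix l m ℝ} {N : D → X3 → Matrix m n ℝ}
    (h : MT J Q k M) (h' : MT J Q k N) : MT J Q k fun d y => M d y * N d y := fun a b =>
  Tame.sum Finset.univ fun c _ => (h a c).mul (h' c b)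

lemma MT.add {m n : Type} {M N : D → X3 → Matrix m n ℝ} (h : MT J Q k M) (h' : MT J Q k N) :
    MT J Q k fun d y => M d y + N d y := fun a b => (h a b).add (h' a b)

lemma MT.sub {m n : Type} {M N : D → X3 → Matrix m n ℝ} (h : MT J Q k M) (h' : MT J Q k N) :
    MT J Q k fun d y => M d y - N d y := fun a b => (h a b).sub (h' a b)

lemma MT.mono {m n : Type} {M : D → X3 → Matrix m n ℝ} {k' : ℕ} (h : MT J Q k M) (hk : k ≤ k') :
    MT J Q k' M := fun a b => (h a b).mono hk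

lemma MT.md {m n : Type} {M : D → X3 → Matrix m n ℝ} (h : MT J Q k M) (i : Fin 3) :
    MT J Q (k + 1) fun d => MD i (M d) := fun a b => (h a b).pd i

lemma MT.blk {c : D → X3 → ℝ} {r l : D → X3 → Fin 3 → ℝ} {B : D → X3 → M3} (hc : Tame J Q k c)
    (hr : ∀ j, Tame J Q k fun d y => r d y j) (hl : ∀ j, Tame J Q k fun d y => l d y j)
    (hB : MT J Q k B) : MT J Q k fun d y => blk (c d y) (r d y) (l d y) (B d y) := by
  intro a b
  refine Fin.cases ?_ (fun k => ?_) a <;> refine Fin.cases ?_ (fun j => ?_) b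
  · exact hc
  · exact hr j
  · exact hl k
  · exact hB k j

lemma MT.ev {F : D → X3 → M3} {A : Fin 3 → D → X3 → M4} (hF : MT J Q k F)
    (hA : ∀ i, MT J Q k (A i)) (a : Fin 3) :
    MT J Q k fun d => ev (F d) (fun i => A i d) a := fun c e =>
  (Tame.sum Finset.univ fun i _ => (hF a i).mul (hA i c e)).congr fun d y => by
    simp only [P354J.ev, Matrix.sum_apply, Matrix.smul_apply, smul_eq_mul]

end

/-- Smooth data in a chart, and their values. -/
def DD : Type := {p : (X3 → M3) × (X3 → M3) // PD p.1 p.2}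
def JJ (d : DD) (y : X3) : N3 × N3 := (fun i j => d.1.1 y i j, fun i j => d.1.2 y i j)

/-- Uniformly positive bounded symmetric matrices. -/
def QQ (c B : ℝ) : Set N3 :=
  {H | (∀ i j, H i j = H j i) ∧ (∀ v : Fin 3 → ℝ, c * ∑ i, v i ^ 2 ≤ ∑ i, ∑ j, v i * H i j * v j)} ∩
    Metric.closedBall 0 B

lemma QQ_compact (c B : ℝ) : IsCompact (QQ c B) := by
  refine (isCompact_closedBall _ _).inter_left ?_
  simp only [ofPred_and, ofPred_forall]
  exact (isClosed_iInter fun i => isClosed_iInter fun j =>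
    isClosed_eq (by fun_prop) (by fun_prop)).inter
    (isClosed_iInter fun v => isClosed_le (by fun_prop) (by fun_prop))

lemma QQ_convex (c B : ℝ) : Convex ℝ (QQ c B) := by
  refine Convex.inter ?_ (convex_closedBall _ _)
  intro H hH H' hH' a b ha hb hab
  refine ⟨fun i j => by simp [hH.1 i j, hH'.1 i j], fun v => ?_⟩
  have h1 := mul_le_mul_of_nonneg_left (hH.2 v) ha
  have h2 := mul_le_mul_of_nonneg_left (hH'.2 v) hb
  simp only [Fin.sum_univ_three, Pi.add_apply, Pi.smul_apply, smul_eq_mul] at h1 h2 ⊢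
  have h3 : c * (v 0 ^ 2 + v 1 ^ 2 + v 2 ^ 2) = (a + b) * (c * (v 0 ^ 2 + v 1 ^ 2 + v 2 ^ 2)) := by
    rw [hab, one_mul]
  linarith

lemma QQ_sub {c B : ℝ} (hc : 0 < c) : QQ c B ⊆ OO := by
  intro H hH
  refine OO_of_posDef (h := Matrix.of H) (Matrix.PosDef.of_dotProduct_mulVec_pos ?_ fun v hv => ?_)
  · ext i j
    simp [hH.1.1 i j]
  · obtain ⟨i, hi⟩ := Function.ne_iff.1 hv
    have h1 : 0 < ∑ i, v i ^ 2 :=
      Finset.sum_pos' (fun _ _ => sq_nonneg _) ⟨i, Finset.mem_univ _, sq_pos_of_ne_zero hi⟩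
    refine (mul_pos hc h1).trans_le ((hH.1.2 v).trans_eq ?_)
    simp only [dotProduct, mulVec, of_apply, star_trivial, Fin.sum_univ_three]
    ring

section
variable {c B : ℝ} {k : ℕ}

lemma tame_h (hc : 0 < c) {F : N3 → ℝ} (hF : ContDiffOn ℝ ∞ F OO) :
    Tame JJ (QQ c B ×ˢ Metric.closedBall 0 B) k fun d y => F (d.1.1 y) :=
  Tame.base (O := OO ×ˢ univ) (J := JJ) (F := fun p : N3 × N3 => F p.1) (isOpen_OO.prod isOpen_univ)
    (prod_mono (QQ_sub hc) (subset_univ _)) ((QQ_compact c B).prod (isCompact_closedBall _ _))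
    ((QQ_convex c B).prod (convex_closedBall _ _))
    (fun d => d.2.smN.prodMk (contDiff_pi.2 fun i => contDiff_pi.2 fun j => d.2.sK i j))
    (fun d y => ⟨d.2.oo y, mem_univ _⟩) (hF.comp contDiffOn_fst fun _ hp => hp.1)

lemma tame_K (hc : 0 < c) : MT JJ (QQ c B ×ˢ Metric.closedBall 0 B) k fun d => d.1.2 :=
  fun i j => Tame.base (O := OO ×ˢ univ) (J := JJ) (F := fun p : N3 × N3 => p.2 i j) (isOpen_OO.prod isOpen_univ)
    (prod_mono (QQ_sub hc) (subset_univ _)) ((QQ_compact c B).prod (isCompact_closedBall _ _))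
    ((QQ_convex c B).prod (convex_closedBall _ _))
    (fun d => d.2.smN.prodMk (contDiff_pi.2 fun i => contDiff_pi.2 fun j => d.2.sK i j))
    (fun d y => ⟨d.2.oo y, mem_univ _⟩) (by fun_prop)

lemma tame_E (hc : 0 < c) :
    MT JJ (QQ c B ×ˢ Metric.closedBall 0 B) k fun d y => Eh (d.1.1 y) :=
  fun i j => tame_h hc (sm_Eh i j)

lemma tame_S (hc : 0 < c) : MT JJ (QQ c B ×ˢ Metric.closedBall 0 B) k fun d =>
    S0 (fun y => Oh (d.1.1 y)) fun y => Eh (d.1.1 y) :=
  MT.blk (c := fun d : DD => fun y => Oh (d.1.1 y)) (r := fun _ _ => 0) (l := fun _ _ => 0)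
    (B := fun d : DD => fun y => (Eh (d.1.1 y))ᵀ) (tame_h hc sm_Oh) (fun _ => Tame.const 0)
    (fun _ => Tame.const 0) fun i j => tame_E hc j i

lemma tame_T (hc : 0 < c) : MT JJ (QQ c B ×ˢ Metric.closedBall 0 B) k fun d =>
    T0 (fun y => Oh (d.1.1 y)) fun y => (Eh (d.1.1 y))⁻¹ :=
  MT.blk (c := fun d : DD => fun y => (Oh (d.1.1 y))⁻¹) (r := fun _ _ => 0) (l := fun _ _ => 0)
    (B := fun d : DD => fun y => (Eh (d.1.1 y))⁻¹ᵀ)
    (tame_h hc (sm_Oh.inv fun _ hH => (Oh_pos hH.2.1 hH.2.2).ne'))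
    (fun _ => Tame.const 0) (fun _ => Tame.const 0) fun i j => tame_h hc (sm_Ehi j i)

lemma tame_W (hc : 0 < c) (i : Fin 3) : MT JJ (QQ c B ×ˢ Metric.closedBall 0 B) 1 fun d =>
    GW d.1.1 (fun y => (d.1.1 y)⁻¹) d.1.2 i := by
  have h0 : MT JJ (QQ c B ×ˢ Metric.closedBall 0 B) 0 fun d => d.1.1 :=
    fun i j => tame_h hc (sm_entry i j).contDiffOn
  have hi : MT JJ (QQ c B ×ˢ Metric.closedBall 0 B) 1 fun d y => (d.1.1 y)⁻¹ :=
    fun i j => tame_h hc (sm_hi i j)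
  exact MT.blk (c := fun _ _ => 0) (r := fun d : DD => fun y => d.1.2 y i)
    (l := fun d : DD => fun y k => ∑ l, (d.1.1 y)⁻¹ k l * d.1.2 y i l)
    (B := fun d : DD => Chr d.1.1 (fun y => (d.1.1 y)⁻¹) i) (Tame.const 0) (tame_K hc i)
    (fun k => Tame.sum Finset.univ fun l _ => (hi k l).mul (tame_K hc i l))
    fun k j => Tame.sum Finset.univ fun l _ => (hi k l).mul
      (((h0.md i j l).add (h0.md j i l)).sub (h0.md l i j)).half

lemma tame_G (hc : 0 < c) (a : Fin 3) :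
    MT JJ (QQ c B ×ˢ Metric.closedBall 0 B) 1 fun d => Gh d.1.1 d.1.2 a :=
  MT.ev (A := fun i (d : DD) => P354J.om d.1.1 (fun y => (d.1.1 y)⁻¹) d.1.2
    (fun y => Oh (d.1.1 y)) (fun y => Eh (d.1.1 y)) (fun y => (Eh (d.1.1 y))⁻¹) i) (tame_E hc)
    (fun i => (((tame_T hc).mul (tame_W hc i)).mul (tame_S hc)).add
      ((tame_T hc).mul ((tame_S hc).md i))) a

lemma tame_U1 (hc : 0 < c) (i : Ix) :
    Tame JJ (QQ c B ×ˢ Metric.closedBall 0 B) 1 fun d y => U1 d.1.1 d.1.2 y i := by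
  have g := tame_G (B := B) hc
  cases i
  all_goals first
    | exact tame_h hc sm_Oh
    | exact tame_h hc sm_bh1
    | exact tame_h hc sm_bh2
    | exact tame_h hc sm_ph11
    | exact tame_h hc sm_ph12
    | exact tame_h hc sm_ph22
    | exact (g _ _ _).add (g _ _ _)
    | exact (g _ _ _).sub (g _ _ _)
    | exact ((g _ _ _).add (g _ _ _)).neg
    | exact ((g _ _ _).sub (g _ _ _)).neg
    | exact ((g _ _ _).add (g _ _ _)).half
    | exact ((g _ _ _).sub (g _ _ _)).half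
    | exact (Tame.const 2).mul (g _ _ _)
    | exact g _ _ _
    | exact Tame.const 0

lemma tame_R (hc : 0 < c) (s t : Fin 3) (j l : Fin 4) :
    Tame JJ (QQ c B ×ˢ Metric.closedBall 0 B) 2 fun d y =>
      curT (U1 d.1.1 d.1.2 y) (dsl (U1 d.1.1 d.1.2) y) s t j l := by
  have u := fun i => (tame_U1 (B := B) hc i).mono one_le_two
  have g : ∀ s, MT JJ (QQ c B ×ˢ Metric.closedBall 0 B) 2 fun d y => GT (U1 d.1.1 d.1.2 y) s :=
    fun s j l => (Tame.lin (gtL s j l) u).congr fun _ _ => (gtL_apply _ _ _ _).symm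
  have dt : ∀ s i, Tame JJ (QQ c B ×ˢ Metric.closedBall 0 B) 2 fun d y =>
      DT (dsl (U1 d.1.1 d.1.2) y) s i := fun s i =>
    ((Tame.const (cT s)).mul (Tame.sum Finset.univ fun a _ =>
      (tame_h hc (sm_Eh s a)).mul ((tame_U1 hc i).pd a))).congr fun d y => by
        rw [DT_dsl]; rfl
  have g' : ∀ s t, Tame JJ (QQ c B ×ˢ Metric.closedBall 0 B) 2 fun d y =>
      GT (DT (dsl (U1 d.1.1 d.1.2) y) s) t j l :=
    fun s t => (Tame.lin (gtL t j l) (dt s)).congr fun _ _ => (gtL_apply _ _ _ _).symm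
  have tt : ∀ m, Tame JJ (QQ c B ×ˢ Metric.closedBall 0 B) 2 fun d y =>
      TT (U1 d.1.1 d.1.2 y) s t m := fun m =>
    (Tame.sum Finset.univ fun x _ => (Tame.const _).mul (g s m x)).sub
      (Tame.sum Finset.univ fun x _ => (Tame.const _).mul (g t m x))
  refine ((((g' s t).sub (g' t s)).add ((((g s).mul (g t)).sub ((g t).mul (g s))) j l)).sub
    (Tame.sum Finset.univ fun m _ => (tt m).mul (Tame.lin (gamL m j l) u))).congr fun d y => ?_
  rw [curT_eq, U1, WT_u1, Matrix.zero_apply, sub_zero]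
  rfl

theorem tame_U0 (hc : 0 < c) (i : Ix) :
    Tame JJ (QQ c B ×ˢ Metric.closedBall 0 B) 2 fun d y => U0 d.1.1 d.1.2 y i := by
  have g := tame_R (B := B) hc
  cases hi : isW i
  · simp only [U0, u2_of _ _ hi]
    exact (tame_U1 hc i).mono one_le_two
  · cases i
    case a1 => exact ((g _ _ _ _).sub (g _ _ _ _)).half
    case a2 => exact ((g _ _ _ _).add (g _ _ _ _)).neg.half
    case be1 => exact g _ _ _ _
    case be2 => exact (g _ _ _ _).neg
    case rho => exact (g _ _ _ _).half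
    case sig => exact (g _ _ _ _).half
    case bb1 => exact (g _ _ _ _).neg
    case bb2 => exact g _ _ _ _
    case ab1 => exact ((g _ _ _ _).sub (g _ _ _ _)).half
    case ab2 => exact ((g _ _ _ _).add (g _ _ _ _)).half
    all_goals exact absurd hi (by decide)

end

lemma unif_pos {S : Set X3} (hS : IsCompact S) {H : X3 → M3} (hH : MS H)
    (hp : ∀ z, (H z).PosDef) : ∃ c > 0, ∀ z ∈ S, ∀ v : Fin 3 → ℝ,
      c * ∑ i, v i ^ 2 ≤ ∑ i, ∑ j, v i * H z i j * v j := by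
  have hc : Continuous fun p : X3 × (Fin 3 → ℝ) => ∑ i, ∑ j, p.2 i * H p.1 i j * p.2 j := by
    refine continuous_finsetSum _ fun i _ => continuous_finsetSum _ fun j _ => ?_
    exact (((continuous_apply i).comp continuous_snd).mul
      ((hH i j).continuous.comp continuous_fst)).mul ((continuous_apply j).comp continuous_snd)
  obtain ⟨c, c0, c1⟩ := (hS.prod (isCompact_sphere (0 : Fin 3 → ℝ) 1)).exists_forall_le'
    hc.continuousOn (a := 0) fun p hp' => by
      have h1 : p.2 ≠ 0 := by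
        intro k
        have := hp'.2
        rw [k] at this
        simp at this
      refine ((hp p.1).dotProduct_mulVec_pos h1).trans_eq ?_
      simp only [dotProduct, mulVec, star_trivial, Fin.sum_univ_three]
      ring
  refine ⟨c / 3, by positivity, fun z hz v => ?_⟩
  rcases eq_or_ne v 0 with rfl | hv
  · simp
  have n0 : 0 < ‖v‖ := norm_pos_iff.2 hv
  have h1 := c1 (z, ‖v‖⁻¹ • v) ⟨hz, by
    rw [mem_sphere_zero_iff_norm, norm_smul, norm_inv, norm_norm, inv_mul_cancel₀ n0.ne']⟩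
  have h2 : ∀ i, v i ^ 2 ≤ ‖v‖ ^ 2 := fun i => by
    rw [← sq_abs]
    exact pow_le_pow_left₀ (abs_nonneg _) (norm_le_pi_norm v i) 2
  have h3 : ∑ i, ∑ j, v i * H z i j * v j =
      ‖v‖ ^ 2 * ∑ i, ∑ j, (‖v‖⁻¹ • v) i * H z i j * (‖v‖⁻¹ • v) j := by
    simp only [Pi.smul_apply, smul_eq_mul, Fin.sum_univ_three]
    field_simp
  rw [h3, Fin.sum_univ_three]
  nlinarith [h2 0, h2 1, h2 2, mul_le_mul_of_nonneg_left h1 (sq_nonneg ‖v‖)]

lemma pdl_stat {f : X3 → ℝ} (h : ∀ x y, f (x, y) = f (0, y)) (α : List (Fin 3)) (x : ℝ)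
    (y : ℝ × ℝ) : pdl α f (x, y) = pdl α f (0, y) := by
  induction α generalizing f with
  | nil => exact h x y
  | cons j α ih =>
    refine ih fun x y => ?_
    have k : f = fun z => f (z + (x, 0)) := funext fun z => by
      rw [show z + (x, 0) = (z.1 + x, z.2) by ext <;> simp, h (z.1 + x), ← h z.1]
    unfold pd
    conv_rhs => rw [k]
    rw [fderiv_comp_add_right]
    simp

lemma bd_N3 {m : ℕ} {F : X3 → M3} (hF : MS F) {z : X3} {c : ℝ}
    (h : ∀ a b, Bd m (fun w => F w a b) z c) : Bd m (fun w i j => F w i j : X3 → N3) z c := by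
  intro α hα
  have s : ContDiff ℝ ∞ (fun w i j => F w i j : X3 → N3) :=
    contDiff_pi.2 fun i => contDiff_pi.2 fun j => hF i j
  have c0 := (h 0 0).nonneg
  refine (pi_norm_le_iff_of_nonneg c0).2 fun i => (pi_norm_le_iff_of_nonneg c0).2 fun j => ?_
  have := congrFun (pdl_clm ((ContinuousLinearMap.proj j).comp
    (ContinuousLinearMap.proj (R := ℝ) (φ := fun _ : Fin 3 => Fin 3 → ℝ) i)) s α) z
  exact (congrArg norm this).symm.trans_le (h i j α hα)

lemma pb_sub (σ : Bool) (F G : X → M3) (z : X3) :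
    pb σ (fun y => F y - G y) z = pb σ F z - pb σ G z := by
  simp only [pb, mul_sub, sub_mul]

lemma wt_le_one {s : ℝ} (hs : 0 ≤ s) (z : X3) : wt s z ≤ 1 :=
  Real.rpow_le_one_of_one_le_of_nonpos (Real.one_le_sqrt.2 (by nlinarith [sq_nonneg z.1]))
    (neg_nonpos.2 hs)

lemma wn_le_pm (s : ℝ) (m : ℕ) (d d' : P354I.Dat) (i j : Fin 3) :
    P354I.wn s m (fun y => d.h y i j - d'.h y i j) ≤ P354I.pm s m d d' ∧
      P354I.wn s m (fun y => d.K y i j - d'.K y i j) ≤ P354I.pm s m d d' := by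
  have h1 : P354I.wn s m (fun y => d.h y i j - d'.h y i j) +
      P354I.wn s m (fun y => d.K y i j - d'.K y i j) ≤ P354I.pm s m d d' :=
    (Finset.single_le_sum (f := fun j => P354I.wn s m (fun y => d.h y i j - d'.h y i j) +
      P354I.wn s m (fun y => d.K y i j - d'.K y i j)) (fun _ _ => zero_le)
      (Finset.mem_univ j)).trans (Finset.single_le_sum (f := fun i => ∑ j,
        (P354I.wn s m (fun y => d.h y i j - d'.h y i j) +
          P354I.wn s m (fun y => d.K y i j - d'.K y i j))) (fun _ _ => zero_le)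
      (Finset.mem_univ i))
  exact ⟨le_self_add.trans h1, le_add_self.trans h1⟩

theorem lip : LIP := by
  intro k m R hk st
  obtain ⟨C0, hC0, hP⟩ := P354JP.pbe (m + 2) R
  have dif : ∀ (s ε : ℝ) (d d' : P354I.Dat), 0 ≤ ε → PDy d → PDy d' →
      P354I.pm s (m + 2) d d' ≤ ENNReal.ofReal ε → ∀ σ (z : X3), ‖z.2‖ ≤ R → ∀ a b,
      Bd (m + 2) (fun w => pb σ d.h w a b - pb σ d'.h w a b) z (C0 * ε * wt s z) ∧
      Bd (m + 2) (fun w => pb σ d.K w a b - pb σ d'.K w a b) z (C0 * ε * wt s z) := by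
    intro s ε d d' hε D D' h σ z hz a b
    have h1 := hP s ε (fun y => d.h y - d'.h y) hε (fun i j => ⟨(D.1 i j).1.sub (D'.1 i j).1,
      (wn_le_pm s _ d d' i j).1.trans h⟩) σ z hz a b
    have h2 := hP s ε (fun y => d.K y - d'.K y) hε (fun i j => ⟨(D.1 i j).2.sub (D'.1 i j).2,
      (wn_le_pm s _ d d' i j).2.trans h⟩) σ z hz a b
    simp only [pb_sub] at h1 h2
    exact ⟨h1, h2⟩
  have hS : IsCompact (({0} : Set ℝ) ×ˢ Metric.closedBall (0 : ℝ × ℝ) R) :=
    isCompact_singleton.prod (isCompact_closedBall _ _)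
  choose c c0 c1 using fun σ => unif_pos hS (hk.toPD σ).sh fun z => ((hk.toPD σ).pos z).1
  choose Bh Bh0 Bh1 using fun σ a b => P354JP.bd_compact (m + 2) hS ((hk.toPD σ).sh a b)
  choose BK BK0 BK1 using fun σ a b => P354JP.bd_compact (m + 2) hS ((hk.toPD σ).sK a b)
  obtain ⟨B, hB⟩ : ∃ B, ∀ σ a b, Bh σ a b ≤ B ∧ BK σ a b ≤ B := by
    obtain ⟨B, hB⟩ := (Set.finite_range fun p : Bool × Fin 3 × Fin 3 =>
      max (Bh p.1 p.2.1 p.2.2) (BK p.1 p.2.1 p.2.2)).bddAbove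
    exact ⟨B, fun σ a b => max_le_iff.1 (hB ⟨(σ, a, b), rfl⟩)⟩
  have cm : 0 < min (c true) (c false) := lt_min (c0 _) (c0 _)
  set γ := min (c true) (c false) with hγ
  have hγσ : ∀ σ, γ ≤ c σ := fun σ => by cases σ; exacts [min_le_right _ _, min_le_left _ _]
  choose C hC hT using fun i => (tame_U0 (c := γ / 2) (B := B + γ) (by positivity) i).est m (B + γ)
  obtain ⟨C1, hC1⟩ := (Set.finite_range C).bddAbove
  have C10 : 0 ≤ C1 := (hC O).trans (hC1 ⟨O, rfl⟩)
  refine ⟨C1 * (1 + C0), γ / (6 * (C0 + 1)), by positivity, by positivity, ?_⟩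
  intro s ε d d' hs hε D D' h1 h2 h3 σ z hz i
  have z0 : ((0 : ℝ), z.2) ∈ ({0} : Set ℝ) ×ˢ Metric.closedBall (0 : ℝ × ℝ) R :=
    ⟨rfl, mem_closedBall_zero_iff.2 hz⟩
  have sm : C0 * (γ / (6 * (C0 + 1))) * wt s z ≤ γ / 6 := by
    have : C0 * (γ / (6 * (C0 + 1))) ≤ γ / 6 := by
      rw [← mul_div_assoc, div_le_div_iff₀ (by positivity) (by positivity)]
      nlinarith
    exact (mul_le_of_le_one_right (by positivity) (wt_le_one hs z)).trans this
  have near : ∀ d, ∀ D : PDy d, P354I.pm s (m + 2) d k ≤ ENNReal.ofReal (γ / (6 * (C0 + 1))) →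
      JJ ⟨(pb σ d.h, pb σ d.K), D.toPD σ⟩ z ∈ QQ (γ / 2) (B + γ) ×ˢ Metric.closedBall 0 (B + γ) ∧
      Bd (m + 2) (JJ ⟨(pb σ d.h, pb σ d.K), D.toPD σ⟩) z (B + γ) := by
    intro d D h
    have k1 := dif s _ d k (by positivity) D hk h σ z hz
    have kk : ∀ {F G : X3 → M3} {β : ℝ} {a b : Fin 3}, MS F → MS G →
        (∀ x y, G (x, y) = G (0, y)) → Bd (m + 2) (fun w => G w a b) (0, z.2) β → β ≤ B →
        Bd (m + 2) (fun w => F w a b - G w a b) z (C0 * (γ / (6 * (C0 + 1))) * wt s z) →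
        Bd (m + 2) (fun w => F w a b) z (B + γ) := by
      intro F G β a b hF hG e k2 k3 k4 α hα
      have k5 := k4 α hα
      have k6 := k2 α hα
      rw [pdl_sub (hF a b) (hG a b)] at k5
      rw [← pdl_stat (fun x y => by rw [e]) α z.1 z.2] at k6
      have := norm_le_norm_sub_add (pdl α (fun w => F w a b) z) (pdl α (fun w => G w a b) z)
      exact this.trans (by linarith)
    have b1 := bd_N3 (D.toPD σ).sh fun a b => kk (D.toPD σ).sh (hk.toPD σ).sh
      (fun x y => (st σ x y).1) (Bh1 σ a b _ z0) (hB σ a b).1 (k1 a b).1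
    have b2 := bd_N3 (D.toPD σ).sK fun a b => kk (D.toPD σ).sK (hk.toPD σ).sK
      (fun x y => (st σ x y).2) (BK1 σ a b _ z0) (hB σ a b).2 (k1 a b).2
    refine ⟨⟨⟨⟨sym_of_posDef ((D.toPD σ).pos z).1, fun v => ?_⟩,
      mem_closedBall_zero_iff.2 b1.zero⟩, mem_closedBall_zero_iff.2 b2.zero⟩,
      Bd.pair (D.toPD σ).smN (contDiff_pi.2 fun i => contDiff_pi.2 fun j => (D.toPD σ).sK i j)
        b1 b2⟩
    have p1 := c1 σ _ z0 v
    rw [← (st σ z.1 z.2).1] at p1
    have p2 : ∀ a b, -(γ / 6 * ((v a ^ 2 + v b ^ 2) / 2)) ≤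
        v a * (pb σ d.h z a b - pb σ k.h z a b) * v b := by
      intro a b
      have q := abs_le.1 (((k1 a b).1.zero).trans sm)
      nlinarith [mul_nonneg (sub_nonneg.2 q.1) (sq_nonneg (v a + v b)),
        mul_nonneg (sub_nonneg.2 q.2) (sq_nonneg (v a - v b))]
    have p3 := mul_le_mul_of_nonneg_right (hγσ σ)
      (Finset.sum_nonneg fun i (_ : i ∈ Finset.univ) => sq_nonneg (v i))
    show _ ≤ ∑ i, ∑ j, v i * pb σ d.h z i j * v j
    simp only [Fin.sum_univ_three] at p1 p3 ⊢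
    linarith [p2 0 0, p2 0 1, p2 0 2, p2 1 0, p2 1 1, p2 1 2, p2 2 0, p2 2 1, p2 2 2]
  obtain ⟨n1, n2⟩ := near d D h1
  obtain ⟨n1', n2'⟩ := near d' D' h2
  have k1 := dif s ε d d' hε D D' h3 σ z hz
  have sJ : ∀ d : DD, ContDiff ℝ ∞ (JJ d) := fun d =>
    d.2.smN.prodMk (contDiff_pi.2 fun i => contDiff_pi.2 fun j => d.2.sK i j)
  have sh := (D.toPD σ).sh.sub (D'.toPD σ).sh
  have sK := (D.toPD σ).sK.sub (D'.toPD σ).sK
  have k2 := hT i (C0 * ε * wt s z) z _ _ n1 n1' ⟨sJ _, sJ _, n2, n2', Bd.pair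
    (contDiff_pi.2 fun i => contDiff_pi.2 fun j => sh i j)
    (contDiff_pi.2 fun i => contDiff_pi.2 fun j => sK i j)
    (bd_N3 sh fun a b => (k1 a b).1) (bd_N3 sK fun a b => (k1 a b).2)⟩
  have k3 : C i ≤ C1 := hC1 ⟨i, rfl⟩
  have w0 := (P354JP.wt_pos s z).le
  refine k2.mono le_rfl (by nlinarith) ?_
  have : C i * C0 ≤ C1 * (1 + C0) := by nlinarith [hC i]
  calc C i * (C0 * ε * wt s z) = C i * C0 * (ε * wt s z) := by ring
    _ ≤ C1 * (1 + C0) * (ε * wt s z) := mul_le_mul_of_nonneg_right this (by positivity)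
    _ = _ := by ring

end Vale.Agent.P354J
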