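import Vale.Agent.P354J.Defs

open scoped ContDiff
open Set Filter Topology Matrix

noncomputable section

namespace Vale.Agent.P354J

open Vale.Agent.P354H Vale.Agent.P354C Vale.Agent.P354C.Ix

/-- The null frame in the orthonormal frame, and the inverse matrix. -/
def Z : M4 := !![1, 1, 0, 0; 1, -1, 0, 0; 0, 0, 1, 0; 0, 0, 0, 1]
def Zi : M4 := !![1 / 2, 1 / 2, 0, 0; 1 / 2, -(1 / 2), 0, 0; 0, 0, 1, 0; 0, 0, 0, 1]
def cT : Fin 3 → ℝ := ![2, 1, 1]

/-- A conformal matrix in the orthonormal frame and in the null frame. -/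
def cof (φ a b c d e f : ℝ) : M4 := !![φ, a, b, c; a, φ, d, e; b, -d, φ, f; c, -e, -f, φ]
def nul (φ a b c d e f : ℝ) : M4 :=
  !![φ + a, 0, (b + d) / 2, (c + e) / 2; 0, φ - a, (b - d) / 2, (c - e) / 2;
    b - d, b + d, φ, f; c - e, c + e, -f, φ]

lemma Z_cof (φ a b c d e f : ℝ) : Zi * cof φ a b c d e f * Z = nul φ a b c d e f := by
  ext i j
  fin_cases i <;> fin_cases j <;>
    simp [Zi, Z, cof, nul, Matrix.mul_apply, Fin.sum_univ_four] <;> ring

lemma Z_Zi : Z * Zi = 1 := by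
  ext i j
  fin_cases i <;> fin_cases j <;> simp [Zi, Z, Matrix.mul_apply, Fin.sum_univ_four] <;> norm_num

lemma eta0_eq : eta0 = !![-1, 0, 0, 0; 0, 1, 0, 0; 0, 0, 1, 0; 0, 0, 0, 1] := by
  ext i j
  fin_cases i <;> fin_cases j <;> rfl

lemma eq_cof {M : M4} {φ : ℝ} (h : Mᵀ * eta0 + eta0 * M = (2 * φ) • eta0) :
    M = cof φ (M 0 1) (M 0 2) (M 0 3) (M 1 2) (M 1 3) (M 2 3) := by
  have k := fun i j => congrFun (congrFun h i) j
  simp only [Matrix.add_apply, Matrix.mul_apply, Fin.sum_univ_four, transpose_apply] at k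
  have k00 := k 0 0
  have k01 := k 0 1
  have k02 := k 0 2
  have k03 := k 0 3
  have k11 := k 1 1
  have k12 := k 1 2
  have k13 := k 1 3
  have k22 := k 2 2
  have k23 := k 2 3
  have k33 := k 3 3
  simp [eta0_eq] at k00 k01 k02 k03 k11 k12 k13 k22 k23 k33
  ext i j
  fin_cases i <;> fin_cases j <;> simp [cof] <;> linarith

/-- The connection on the vectors l - n, e2, e3. -/
def GT (U : Ix → ℝ) (s : Fin 3) : M4 := Matrix.of fun j k => ∑ x, tang s x * Gam U x j k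

/-- The Weyl field on two of these vectors. -/
def WT (U : Ix → ℝ) (s t : Fin 3) : M4 :=
  Matrix.of fun j k => ∑ x, ∑ y, tang s x * tang t y * Wy U j k x y

lemma GT_0 (U : Ix → ℝ) : GT U 0 = !![2 * U .om, 0, U B1, U B2; 0, -(2 * U omb), -U A1, -U A2;
    -(2 * U A1), 2 * U B1, U .om - U omb, -U r0; -(2 * U A2), 2 * U B2, U r0, U .om - U omb] := by
  ext i j
  fin_cases i <;> fin_cases j <;> simp [GT, tang, Gam, Fin.sum_univ_four] <;> ring

lemma GT_1 (U : Ix → ℝ) : GT U 1 = !![2 * U p1, 0, U Y11, U Y21; 0, 2 * U q1, U X11, U X21;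
    2 * U X11, 2 * U Y11, U p1 + U q1, -U r1; 2 * U X21, 2 * U Y21, U r1, U p1 + U q1] := by
  ext i j
  fin_cases i <;> fin_cases j <;> simp [GT, tang, Gam, Fin.sum_univ_four]

lemma GT_2 (U : Ix → ℝ) : GT U 2 = !![2 * U p2, 0, U Y12, U Y22; 0, 2 * U q2, U X12, U X22;
    2 * U X12, 2 * U Y12, U p2 + U q2, -U r2; 2 * U X22, 2 * U Y22, U r2, U p2 + U q2] := by
  ext i j
  fin_cases i <;> fin_cases j <;> simp [GT, tang, Gam, Fin.sum_univ_four]

lemma GT_u1 (h : M3) {G : Fin 3 → M4} {φ : Fin 3 → ℝ}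
    (hG : ∀ s, (G s)ᵀ * eta0 + eta0 * G s = (2 * φ s) • eta0) (s : Fin 3) :
    GT (u1 h G) s = cT s • (Zi * G s * Z) := by
  have k := eq_cof (hG s)
  have k00 := congrFun (congrFun k 0) 0
  have k20 := congrFun (congrFun k 2) 0
  have k21 := congrFun (congrFun k 2) 1
  have k30 := congrFun (congrFun k 3) 0
  have k31 := congrFun (congrFun k 3) 1
  have k32 := congrFun (congrFun k 3) 2
  simp [cof] at k00 k20 k21 k30 k31 k32
  rw [k, Z_cof]
  fin_cases s
  · simp only [Fin.zero_eta] at *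
    rw [GT_0]
    ext i j
    fin_cases i <;> fin_cases j <;> simp [u1, cT, nul, k00, k20, k21, k30, k31, k32] <;> ring
  · simp only [Fin.mk_one] at *
    rw [GT_1]
    ext i j
    fin_cases i <;> fin_cases j <;> simp [u1, cT, nul, k00, k20, k21, k30, k31, k32] <;> ring
  · simp only [Fin.reduceFinMk] at *
    rw [GT_2]
    ext i j
    fin_cases i <;> fin_cases j <;> simp [u1, cT, nul, k00, k20, k21, k30, k31, k32] <;> ring

lemma WT_01 (U : Ix → ℝ) : WT U 0 1 = !![2 * (U be1 - U bb1), 0, U rho + U ab1, U ab2 - U sig;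
    0, -(2 * (U be1 - U bb1)), -U a1 - U rho, -U a2 - U sig;
    2 * (-U a1 - U rho), 2 * (U rho + U ab1), 0, 2 * (U be2 + U bb2);
    2 * (-U a2 - U sig), 2 * (U ab2 - U sig), -(2 * (U be2 + U bb2)), 0] := by
  ext i j
  fin_cases i <;> fin_cases j <;> simp [WT, tang, Wy, asym, Fin.sum_univ_four] <;> ring

lemma WT_02 (U : Ix → ℝ) : WT U 0 2 = !![2 * (U be2 - U bb2), 0, U sig + U ab2, U rho - U ab1;
    0, -(2 * (U be2 - U bb2)), U sig - U a2, U a1 - U rho;
    2 * (U sig - U a2), 2 * (U sig + U ab2), 0, -(2 * (U be1 + U bb1));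
    2 * (U a1 - U rho), 2 * (U rho - U ab1), 2 * (U be1 + U bb1), 0] := by
  ext i j
  fin_cases i <;> fin_cases j <;> simp [WT, tang, Wy, asym, Fin.sum_univ_four] <;> ring

lemma WT_12 (U : Ix → ℝ) : WT U 1 2 = !![2 * U sig, 0, U bb2, -U bb1;
    0, -(2 * U sig), -U be2, U be1; -(2 * U be2), 2 * U bb2, 0, -(2 * U rho);
    2 * U be1, -(2 * U bb1), 2 * U rho, 0] := by
  ext i j
  fin_cases i <;> fin_cases j <;> simp [WT, tang, Wy, asym, Fin.sum_univ_four]

lemma asym_swap (a b c d e f : ℝ) (x y : Fin 4) : asym a b c d e f y x = -asym a b c d e f x y := by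
  fin_cases x <;> fin_cases y <;> simp [asym]

lemma Wy_swap (U : Ix → ℝ) (j k x y : Fin 4) : Wy U j k y x = -Wy U j k x y := by
  fin_cases j <;> fin_cases k <;> simp [Wy, asym_swap _ _ _ _ _ _ x y]

lemma WT_swap (U : Ix → ℝ) (s t : Fin 3) : WT U t s = -WT U s t := by
  ext j k
  simp only [WT, of_apply, Matrix.neg_apply]
  rw [Finset.sum_comm, ← Finset.sum_neg_distrib]
  refine Finset.sum_congr rfl fun x _ => ?_
  rw [← Finset.sum_neg_distrib]
  refine Finset.sum_congr rfl fun y _ => ?_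
  rw [Wy_swap]
  ring

lemma WT_self (U : Ix → ℝ) (s : Fin 3) : WT U s s = 0 := by
  have := WT_swap U s s
  ext j k
  have h := congrFun (congrFun this j) k
  simp only [Matrix.neg_apply] at h
  simp only [Matrix.zero_apply]
  linarith

/-- The algebraic symmetries of the curvature on the slice, in the orthonormal frame. -/
structure Alg (F : Fin 3 → Fin 3 → M4) : Prop where
  anti : ∀ s t, F t s = -F s t
  skew : ∀ s t, (F s t)ᵀ * eta0 + eta0 * F s t = 0
  cyc : ∀ c, F 0 1 c 3 + F 1 2 c 1 + F 2 0 c 2 = 0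

lemma ham_one (F : Fin 3 → Fin 3 → M4) : ham 1 F = F 0 0 1 1 + F 0 1 1 2 + F 0 2 1 3 +
    (F 1 0 2 1 + F 1 1 2 2 + F 1 2 2 3) + (F 2 0 3 1 + F 2 1 3 2 + F 2 2 3 3) := by
  simp [ham, Fin.sum_univ_three, Matrix.one_apply]

lemma mom_one (F : Fin 3 → Fin 3 → M4) (i : Fin 3) :
    mom 1 F i = F i 0 0 1 + F i 1 0 2 + F i 2 0 3 := by
  simp [mom, Fin.sum_univ_three, Matrix.one_apply]

lemma Alg.self {F : Fin 3 → Fin 3 → M4} (h : Alg F) (s : Fin 3) : F s s = 0 := by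
  ext j k
  have h := congrFun (congrFun (h.anti s s) j) k
  simp only [Matrix.neg_apply] at h
  simp only [Matrix.zero_apply]
  linarith

lemma Alg.cof {F : Fin 3 → Fin 3 → M4} (h : Alg F) (s t : Fin 3) :
    F s t = cof 0 (F s t 0 1) (F s t 0 2) (F s t 0 3) (F s t 1 2) (F s t 1 3) (F s t 2 3) :=
  eq_cof (by rw [h.skew, mul_zero, zero_smul])

/-- The curvature on the slice is a Weyl field if and only if the two traces vanish. -/
theorem weyl_iff {F : Fin 3 → Fin 3 → M4} (h : Alg F) (U : Ix → ℝ)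
    (R : Fin 3 → Fin 3 → M4) (hR : ∀ s t, R s t = (cT s * cT t) • (Zi * F s t * Z)) :
    ((∀ s t, R s t = WT U s t) → ham 1 F = 0 ∧ ∀ i, mom 1 F i = 0) ∧
    (U a1 = (R 0 2 1 3 - R 0 1 1 2) / 2 → U a2 = -(R 0 2 1 2 + R 0 1 1 3) / 2 →
      U be1 = R 1 2 1 3 → U be2 = -R 1 2 1 2 → U rho = R 1 2 3 2 / 2 → U sig = R 1 2 0 0 / 2 →
      U bb1 = -R 1 2 0 3 → U bb2 = R 1 2 0 2 → U ab1 = (R 0 1 0 2 - R 0 2 0 3) / 2 →
      U ab2 = (R 0 2 0 2 + R 0 1 0 3) / 2 → ham 1 F = 0 → (∀ i, mom 1 F i = 0) →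
      ∀ s t, R s t = WT U s t) := by
  obtain ⟨x1, x2, x3, x4, x5, x6, e01⟩ : ∃ a b c d e f, F 0 1 = cof 0 a b c d e f :=
    ⟨_, _, _, _, _, _, h.cof 0 1⟩
  obtain ⟨y1, y2, y3, y4, y5, y6, e02⟩ : ∃ a b c d e f, F 0 2 = cof 0 a b c d e f :=
    ⟨_, _, _, _, _, _, h.cof 0 2⟩
  obtain ⟨z1, z2, z3, z4, z5, z6, e12⟩ : ∃ a b c d e f, F 1 2 = cof 0 a b c d e f :=
    ⟨_, _, _, _, _, _, h.cof 1 2⟩
  have c0 := h.cyc 0
  have c1 := h.cyc 1
  have c2 := h.cyc 2
  have c3 := h.cyc 3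
  have m0 := mom_one F 0
  have m1 := mom_one F 1
  have m2 := mom_one F 2
  have hh := ham_one F
  rw [h.anti 0 2, e01, e02, e12] at c0 c1 c2 c3
  rw [h.self, e01, e02] at m0
  rw [h.self, h.anti 0 1, e01, e12] at m1
  rw [h.self, h.anti 0 2, h.anti 1 2, e02, e12] at m2
  rw [h.self, h.self, h.self, h.anti 0 1, h.anti 0 2, h.anti 1 2, e01, e02, e12] at hh
  simp [cof] at c0 c1 c2 c3 m0 m1 m2 hh
  have r01 := hR 0 1
  have r02 := hR 0 2
  have r12 := hR 1 2
  rw [e01, Z_cof] at r01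
  rw [e02, Z_cof] at r02
  rw [e12, Z_cof] at r12
  constructor
  · intro k
    have k1 := fun i j => congrFun (congrFun (k 0 1) i) j
    have k2 := fun i j => congrFun (congrFun (k 0 2) i) j
    have k3 := fun i j => congrFun (congrFun (k 1 2) i) j
    rw [r01, WT_01] at k1
    rw [r02, WT_02] at k2
    rw [r12, WT_12] at k3
    have a1 := k1 0 0
    have a2 := k1 0 2
    have a3 := k1 1 2
    have a4 := k2 0 0
    have a5 := k2 0 3
    have a6 := k2 1 3
    have a7 := k3 2 3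
    have a8 := k3 0 2
    have a9 := k3 0 3
    have a10 := k3 1 2
    have a11 := k3 1 3
    simp [cT, nul] at a1 a2 a3 a4 a5 a6 a7 a8 a9 a10 a11
    refine ⟨by linarith, fun i => ?_⟩
    fin_cases i
    · exact (by linarith : mom 1 F 0 = 0)
    · exact (by linarith : mom 1 F 1 = 0)
    · exact (by linarith : mom 1 F 2 = 0)
  · intro h1 h2 h3 h4 h5 h6 h7 h8 h9 h10 k0 k
    have k1 := k 0
    have k2 := k 1
    have k3 := k 2
    rw [r01, r02] at h1 h2 h9 h10
    rw [r12] at h3 h4 h5 h6 h7 h8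
    simp [cT, nul] at h1 h2 h3 h4 h5 h6 h7 h8 h9 h10
    have w01 : R 0 1 = WT U 0 1 := by
      rw [r01, WT_01]
      ext i j
      fin_cases i <;> fin_cases j <;> simp [cT, nul] <;> linarith
    have w02 : R 0 2 = WT U 0 2 := by
      rw [r02, WT_02]
      ext i j
      fin_cases i <;> fin_cases j <;> simp [cT, nul] <;> linarith
    have w12 : R 1 2 = WT U 1 2 := by
      rw [r12, WT_12]
      ext i j
      fin_cases i <;> fin_cases j <;> simp [cT, nul] <;> linarith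
    have sw : ∀ s t, R s t = WT U s t → R t s = WT U t s := by
      intro s t e
      rw [WT_swap, ← e, hR, hR, h.anti s t, mul_comm (cT t)]
      simp
    have sf : ∀ s, R s s = WT U s s := by
      intro s
      rw [WT_self, hR, h.self]
      simp
    intro s t
    fin_cases s <;> fin_cases t
    exacts [sf 0, w01, w02, sw _ _ w01, sf 1, w12, sw _ _ w02, sw _ _ w12, sf 2]

end Vale.Agent.P354J
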