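import Vale.Agent.P354J.Alg

open scoped ContDiff
open Set Filter Topology Matrix

noncomputable section

namespace Vale.Agent.P354J

open Vale.Agent.P354H Vale.Agent.P354C Vale.Agent.P354C.Ix

lemma blk_conj_ss (p q : ℝ) (B B' : M3) (M : M4) (k l : Fin 3) :
    (blk p 0 0 B * M * blk q 0 0 B') k.succ l.succ =
      ∑ m, ∑ n, B k m * M m.succ n.succ * B' n l := by
  simp only [Matrix.mul_apply, Fin.sum_univ_succ (n := 3), blk_0s, blk_s0, blk_ss, Pi.zero_apply,
    Fin.sum_univ_three]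
  ring

lemma blk_conj_0s (p q : ℝ) (B B' : M3) (M : M4) (l : Fin 3) :
    (blk p 0 0 B * M * blk q 0 0 B') 0 l.succ = p * ∑ n, M 0 n.succ * B' n l := by
  simp only [Matrix.mul_apply, Fin.sum_univ_succ (n := 3), blk_00, blk_0s, blk_ss, Pi.zero_apply,
    Fin.sum_univ_three]
  ring

/-- The traces of the curvature in another frame. -/
theorem ham_tr {E C H H' : M3} {c p q : ℝ} (F F' : Fin 3 → Fin 3 → M4) (hCE : C * E = 1)
    (hH : Eᵀ * H' * E = c • H) (hF : ∀ a b, F' a b =
      ∑ i, ∑ j, (E a i * E b j) • (blk p 0 0 Cᵀ * F i j * blk q 0 0 Eᵀ)) :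
    ham H' F' = c * ham H F ∧ ∀ a, mom H' F' a = c * p * ∑ i, E a i * mom H F i := by
  have h1 : ∀ Y : Fin 3 → Fin 3 → ℝ, ∑ a, ∑ i, ∑ m, E a i * C m a * Y i m = ∑ i, Y i i := by
    intro Y
    have k : ∀ m i, ∑ a, C m a * E a i = if m = i then 1 else 0 := fun m i => by
      have := congrFun (congrFun hCE m) i
      rwa [Matrix.mul_apply, Matrix.one_apply] at this
    calc _ = ∑ i, ∑ m, (∑ a, C m a * E a i) * Y i m := by
          simp only [Fin.sum_univ_three]; ring
      _ = _ := by simp [k]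
  have h2 : ∀ Y : Fin 3 → Fin 3 → ℝ, ∑ b, ∑ d, H' b d * ∑ j, ∑ n, E b j * E d n * Y j n =
      c * ∑ j, ∑ n, H j n * Y j n := by
    intro Y
    have k : ∀ j n, ∑ d, (∑ b, E b j * H' b d) * E d n = c * H j n := fun j n => by
      have := congrFun (congrFun hH j) n
      simpa only [Matrix.mul_apply, transpose_apply, Matrix.smul_apply, smul_eq_mul] using this
    calc _ = ∑ j, ∑ n, (∑ d, (∑ b, E b j * H' b d) * E d n) * Y j n := by
          simp only [Fin.sum_univ_three]; ring
      _ = _ := by simp only [k]; simp only [Fin.sum_univ_three]; ring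
  constructor
  · have h3 : ∀ b d, ∑ a, F' a b a.succ d.succ =
        ∑ j, ∑ n, E b j * E d n * ∑ i, F i j i.succ n.succ := by
      intro b d
      have h4 : ∀ j (n : Fin 3), ∑ i, F i j i.succ n.succ =
          ∑ a, ∑ i, ∑ m, E a i * C m a * F i j m.succ n.succ :=
        fun j n => (h1 fun i m => F i j m.succ n.succ).symm
      simp only [h4]
      simp only [hF, Matrix.sum_apply, Matrix.smul_apply, blk_conj_ss, transpose_apply,
        smul_eq_mul]
      simp only [Fin.sum_univ_three]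
      ring
    calc ham H' F' = ∑ b, ∑ d, H' b d * ∑ a, F' a b a.succ d.succ := by
          simp only [ham, Fin.sum_univ_three]; ring
      _ = _ := by
          simp only [h3, h2]
          simp only [ham, Fin.sum_univ_three]; ring
  · intro a
    have h3 : ∀ b d, F' a b 0 d.succ =
        ∑ j, ∑ n, E b j * E d n * (p * ∑ i, E a i * F i j 0 n.succ) := by
      intro b d
      simp only [hF, Matrix.sum_apply, Matrix.smul_apply, blk_conj_0s, transpose_apply,
        smul_eq_mul]
      simp only [Fin.sum_univ_three]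
      ring
    simp only [mom, h3, h2]
    simp only [Fin.sum_univ_three]
    ring

/-- The connection is linear in the unknowns. -/
def gamL (y j k : Fin 4) : (Ix → ℝ) →ₗ[ℝ] ℝ where
  toFun U := Gam U y j k
  map_add' U V := by
    fin_cases y <;> fin_cases j <;> fin_cases k <;> simp [Gam] <;> ring
  map_smul' c U := by
    fin_cases y <;> fin_cases j <;> fin_cases k <;> simp [Gam] <;> ring

def gtL (t : Fin 3) (j k : Fin 4) : (Ix → ℝ) →ₗ[ℝ] ℝ := ∑ y, (tang t y : ℝ) • gamL y j k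

lemma gtL_apply (t : Fin 3) (j k : Fin 4) (U : Ix → ℝ) : gtL t j k U = GT U t j k := by
  simp only [gtL, LinearMap.sum_apply, LinearMap.smul_apply, smul_eq_mul]
  rfl

/-- The derivative along the vector number s of l - n, e2, e3. -/
def DT (dU : Fin 4 → Ix → ℝ) (s : Fin 3) : Ix → ℝ := ∑ x, (tang s x : ℝ) • dU x

lemma DT_apply (dU : Fin 4 → Ix → ℝ) (s : Fin 3) (i : Ix) :
    DT dU s i = ∑ x, tang s x * dU x i := by
  simp only [DT, Finset.sum_apply, Pi.smul_apply, smul_eq_mul]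

/-- The brackets of these vectors, written with the connection. -/
def TT (U : Ix → ℝ) (s t : Fin 3) (m : Fin 4) : ℝ :=
  ∑ y, tang t y * GT U s m y - ∑ x, tang s x * GT U t m x

lemma curT_eq (U : Ix → ℝ) (dU : Fin 4 → Ix → ℝ) (s t : Fin 3) (j k : Fin 4) :
    curT U dU s t j k = GT (DT dU s) t j k - GT (DT dU t) s j k +
      (GT U s * GT U t - GT U t * GT U s) j k - ∑ m, TT U s t m * Gam U m j k - WT U s t j k := by
  have k1 : ∀ s t, GT (DT dU s) t j k = ∑ x, tang s x * GT (dU x) t j k := by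
    intro s t
    simp only [← gtL_apply, DT, map_sum, map_smul, smul_eq_mul]
  rw [k1, k1]
  simp only [curT, curD, GT, TT, WT, of_apply, Matrix.sub_apply, Matrix.mul_apply,
    Fin.sum_univ_four]
  ring

/-- The derivative of the matrix Eu. -/
def Eu' (U : Ix → ℝ) : M3 := !![0, U b1 / 2, U b2 / 2; 0, U P11, U P12; 0, U P21, U P22]

/-- A vector with first component zero. -/
def up (f : Fin 3 → ℝ) : Fin 4 → ℝ := ![0, f 0, f 1, f 2]

lemma torT_eq (U : Ix → ℝ) (dU : Fin 4 → Ix → ℝ) (s t : Fin 3) (μ : Fin 4) :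
    ∑ x, ∑ y, tang s x * tang t y * torC U (dEof dU) x y μ = ∑ m, TT U s t m * E U m μ -
      up (fun j => cT t * Eu' (DT dU s) t j - cT s * Eu' (DT dU t) s j) μ := by
  have k1 : ∀ s t, ∑ x, ∑ y, tang s x * tang t y * dEof dU x y μ =
      up (fun j => cT t * Eu' (DT dU s) t j) μ := by
    intro s t
    unfold DT
    generalize (tang s : Fin 4 → ℝ) = τ
    fin_cases t <;> fin_cases μ <;>
      simp [tang, dEof, cT, Eu', up, Fin.sum_univ_four] <;> ring
  have k2 : up (fun j => cT t * Eu' (DT dU s) t j - cT s * Eu' (DT dU t) s j) μ =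
      up (fun j => cT t * Eu' (DT dU s) t j) μ - up (fun j => cT s * Eu' (DT dU t) s j) μ := by
    fin_cases μ <;> simp [up]
  rw [k2, ← k1, ← k1]
  simp only [torC, GT, TT, of_apply, Fin.sum_univ_four]
  ring

lemma TT_conj {U : Ix → ℝ} {G : Fin 3 → M4} (hG : ∀ s, GT U s = cT s • (Zi * G s * Z))
    (s t : Fin 3) (m : Fin 4) :
    TT U s t m = cT s * cT t * ∑ c, Zi m c * (G s c t.succ - G t c s.succ) := by
  have k : ∀ (M : M4) (t : Fin 3), ∑ y, tang t y * (Zi * M * Z) m y =
      cT t * ∑ c, Zi m c * M c t.succ := by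
    intro M t
    simp only [Matrix.mul_apply, Fin.sum_univ_four]
    fin_cases t <;> simp [tang, Z, cT]
    ring
  have k' : ∀ s t, ∑ y, tang t y * GT U s m y = cT s * (cT t * ∑ c, Zi m c * G s c t.succ) := by
    intro s t
    rw [← k, hG, Finset.mul_sum]
    refine Finset.sum_congr rfl fun y _ => ?_
    simp only [Matrix.smul_apply, smul_eq_mul]
    ring
  unfold TT
  rw [k', k']
  simp only [Fin.sum_univ_four]
  ring

lemma Zi_gam {U : Ix → ℝ} {G : Fin 3 → M4} (hG : ∀ s, GT U s = cT s • (Zi * G s * Z))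
    (w : Fin 4 → ℝ) (h0 : w 0 = 0) (j k : Fin 4) :
    ∑ m, (∑ c, Zi m c * w c) * Gam U m j k = ∑ c : Fin 3, w c.succ * (Zi * G c * Z) j k := by
  have k0 := congrFun (congrFun (hG 0) j) k
  have k1 := congrFun (congrFun (hG 1) j) k
  have k2 := congrFun (congrFun (hG 2) j) k
  simp only [Fin.sum_univ_three]
  generalize Zi * G 0 * Z = X0 at *
  generalize Zi * G 1 * Z = X1 at *
  generalize Zi * G 2 * Z = X2 at *
  simp [GT, tang, cT, Fin.sum_univ_four] at k0 k1 k2
  simp [Zi, Fin.sum_univ_four, h0]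
  linear_combination w 1 / 2 * k0 + w 2 * k1 + w 3 * k2

lemma Zi_E (U : Ix → ℝ) (w : Fin 4 → ℝ) (h0 : w 0 = 0) (μ : Fin 4) :
    ∑ m, (∑ c, Zi m c * w c) * E U m μ =
      up (fun j => ∑ c : Fin 3, w c.succ * Eu U c j) μ := by
  fin_cases μ <;> simp [up, Zi, E, Eu, Fin.sum_univ_four, Fin.sum_univ_three, h0] <;> ring

/-- The components of the coordinate vectors in the frame (l - n) / 2, e2, e3. -/
def Cu (U : Ix → ℝ) : M3 :=
  Matrix.of fun a => ![(e a).1, th U (0, e a) 2, th U (0, e a) 3]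

/-- The second fundamental form in this frame, divided by O. -/
def kap (U : Ix → ℝ) : M3 :=
  !![(U .om + U omb) / 2, (U B1 - U A1) / 2, (U B2 - U A2) / 2;
    U p1 - U q1, U Y11 + U X11, U Y21 + U X21; U p2 - U q2, U Y12 + U X12, U Y22 + U X22]

lemma Cu_Eu {U : Ix → ℝ} (h : detP U ≠ 0) : Cu U * Eu U = 1 := by
  ext i j
  simp only [Matrix.mul_apply, Fin.sum_univ_three]
  fin_cases i <;> fin_cases j <;> simp [Cu, Eu, th, e] <;> field_simp <;> simp only [detP] <;> ring

lemma th_0 (U : Ix → ℝ) (a : X3) : th U (0, a) 0 = a.1 / 2 := by simp [th]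
lemma th_1 (U : Ix → ℝ) (a : X3) : th U (0, a) 1 = -(a.1 / 2) := by simp [th]; ring

lemma hf_eq (U : Ix → ℝ) (a b : Fin 3) :
    hf U (e a) (e b) = U O ^ 2 * (Cu U * (Cu U)ᵀ) a b := by
  simp only [hf, eta, th_0, th_1, Matrix.mul_apply, Fin.sum_univ_three, transpose_apply]
  congr 1
  simp [Cu]
  ring

lemma Kf_eq (U : Ix → ℝ) (a b : Fin 3) :
    Kf U (e a) (e b) = U O * (Cu U * kap U * (Cu U)ᵀ) a b := by
  simp only [Kf, th_0, th_1, Matrix.mul_apply, Fin.sum_univ_three, Fin.sum_univ_four,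
    transpose_apply]
  congr 1
  simp [Cu, kap, Gam]
  ring

lemma kap_u1 (h : M3) {G : Fin 3 → M4} {φ : Fin 3 → ℝ}
    (hG : ∀ s, (G s)ᵀ * eta0 + eta0 * G s = (2 * φ s) • eta0) (s t : Fin 3) :
    kap (u1 h G) s t = G s 0 t.succ := by
  have k := eq_cof (hG s)
  have k20 := congrFun (congrFun k 2) 0
  have k30 := congrFun (congrFun k 3) 0
  simp [cof] at k20 k30
  fin_cases s <;> fin_cases t <;> simp [kap, u1] at * <;> linarith

end Vale.Agent.P354J
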