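import Vale.Agent.P354J.Mat

open scoped ContDiff
open Set Filter Topology Matrix

namespace Vale.Agent.P354J

open Vale.Agent.P354H

variable {m n : Type} [Fintype n]

/-- The covariant derivative of the columns of M. -/
noncomputable def cov (A : Fin 3 → X3 → Matrix n n ℝ) (i : Fin 3) (M : X3 → Matrix n m ℝ)
    (x : X3) : Matrix n m ℝ := MD i M x + A i x * M x

/-- The connection A preserves the metric G. -/
def IsMet (G : X3 → Matrix n n ℝ) (A : Fin 3 → X3 → Matrix n n ℝ) : Prop :=
  ∀ i x, MD i G x = (A i x)ᵀ * G x + G x * A i x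

/-- The connection A is torsion free for the soldering form whose value on the j-th coordinate
vector is the j-th column of I. -/
def IsTF (I : X3 → Matrix n (Fin 3) ℝ) (A : Fin 3 → X3 → Matrix n n ℝ) : Prop :=
  ∀ i j x a, cov A i I x a j = cov A j I x a i

variable {A : Fin 3 → X3 → Matrix n n ℝ}

lemma MS.cov (hA : ∀ i, MS (A i)) {M : X3 → Matrix n m ℝ} (hM : MS M) (i : Fin 3) :
    MS (cov A i M) := (hM.md i).add ((hA i).mul hM)

lemma cov_cov (hA : ∀ i, MS (A i)) {M : X3 → Matrix n m ℝ} (hM : MS M) (i j : Fin 3) (x : X3) :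
    cov A i (cov A j M) x - cov A j (cov A i M) x = curv A i j x * M x := by
  have d : ∀ i j, MD i (cov A j M) x = MD i (MD j M) x + (MD i (A j) x * M x + A j x * MD i M x) := by
    intro i j
    unfold cov
    rw [MD_add (hM.md j) ((hA j).mul hM), MD_mul (hA j) hM]
  conv_lhs => unfold cov
  have d1 := d i j
  have d2 := d j i
  unfold cov at d1 d2
  rw [d1, d2, MD_comm hM i j]
  unfold curv
  simp only [Matrix.mul_add, Matrix.add_mul, Matrix.sub_mul, Matrix.mul_assoc]
  abel

lemma cov_col {m' : Type} {M : X3 → Matrix n m ℝ} {N : X3 → Matrix n m' ℝ} {j : m} {k : m'}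
    (h : ∀ y a, M y a j = N y a k) (i : Fin 3) (x : X3) (a : n) :
    cov A i M x a j = cov A i N x a k := by
  simp only [cov, Matrix.add_apply, MD_apply, Matrix.mul_apply, h]

/-- The first Bianchi identity. -/
theorem bianchi1 (hA : ∀ i, MS (A i)) {I : X3 → Matrix n (Fin 3) ℝ} (hI : MS I) (h : IsTF I A)
    (i j k : Fin 3) (x : X3) (a : n) :
    (curv A i j x * I x) a k + (curv A j k x * I x) a i + (curv A k i x * I x) a j = 0 := by
  rw [← cov_cov hA hI, ← cov_cov hA hI, ← cov_cov hA hI]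
  simp only [Matrix.sub_apply]
  rw [cov_col (fun y a => h j k y a) i, cov_col (fun y a => h i k y a) j,
    cov_col (fun y a => h j i y a) k]
  ring

/-- The curvature of a metric connection is skew. -/
theorem curv_skew (hA : ∀ i, MS (A i)) {G : X3 → Matrix n n ℝ} (hG : MS G) (h : IsMet G A)
    (i j : Fin 3) (x : X3) : (curv A i j x)ᵀ * G x + G x * curv A i j x = 0 := by
  have d : ∀ i j, MD i (MD j G) x = (MD i (A j) x)ᵀ * G x +
      (A j x)ᵀ * ((A i x)ᵀ * G x + G x * A i x) + (((A i x)ᵀ * G x + G x * A i x) * A j x +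
      G x * MD i (A j) x) := by
    intro i j
    rw [show MD j G = fun y => (A j y)ᵀ * G y + G y * A j y from funext (h j),
      MD_add ((hA j).tr.mul hG) (hG.mul (hA j)), MD_mul (hA j).tr hG, MD_mul hG (hA j), h i x,
      MD_tr]
  have e := MD_comm hG i j x
  rw [d, d] at e
  unfold curv
  simp only [transpose_add, transpose_sub, transpose_mul]
  rw [← sub_eq_zero] at e
  rw [← e]
  noncomm_ring

variable [DecidableEq n] {S T : X3 → Matrix n n ℝ}

lemma cov_gauge (hS : MS S) (hT : MS T) (hTS : ∀ y, T y * S y = 1) {M : X3 → Matrix n m ℝ}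
    (hM : MS M) (i : Fin 3) (x : X3) :
    cov (gauge S T A) i (fun y => T y * M y) x = T x * cov A i M x := by
  have hST : S x * T x = 1 := mul_eq_one_comm.1 (hTS x)
  unfold cov gauge
  rw [MD_mul hT hM, MD_inv hS hT hTS]
  have : T x * A i x * S x * (T x * M x) = T x * (A i x * M x) := by
    rw [Matrix.mul_assoc, ← Matrix.mul_assoc (S x), hST, Matrix.one_mul, Matrix.mul_assoc]
  rw [Matrix.add_mul, this]
  simp only [Matrix.mul_add, Matrix.neg_mul, Matrix.mul_assoc]
  abel

lemma IsTF.gauge (hS : MS S) (hT : MS T) (hTS : ∀ y, T y * S y = 1)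
    {I : X3 → Matrix n (Fin 3) ℝ} (hI : MS I) (h : IsTF I A) :
    IsTF (fun y => T y * I y) (gauge S T A) := by
  intro i j x a
  rw [cov_gauge hS hT hTS hI, cov_gauge hS hT hTS hI]
  simp only [Matrix.mul_apply, h i j x]

lemma IsMet.gauge (hS : MS S) (hTS : ∀ y, T y * S y = 1) {G : X3 → Matrix n n ℝ}
    (hG : MS G) (h : IsMet G A) : IsMet (fun y => (S y)ᵀ * G y * S y) (gauge S T A) := by
  intro i x
  have hST : S x * T x = 1 := mul_eq_one_comm.1 (hTS x)
  have hST' : (T x)ᵀ * (S x)ᵀ = 1 := by rw [← transpose_mul, hST, transpose_one]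
  rw [MD_mul (hS.tr.mul hG) hS, MD_mul hS.tr hG, h i x, MD_tr]
  unfold P354J.gauge
  have e1 : ∀ B C : Matrix n n ℝ, B * S x * (T x * C) = B * C := by
    intro B C
    rw [mul_assoc, ← mul_assoc (S x), hST, one_mul]
  have e2 : ∀ B C : Matrix n n ℝ, B * (T x)ᵀ * ((S x)ᵀ * C) = B * C := by
    intro B C
    rw [mul_assoc, ← mul_assoc (T x)ᵀ, hST', one_mul]
  have e3 := e1 ((S x)ᵀ * G x) (A i x * S x + MD i S x)
  have e4 := e2 ((S x)ᵀ * (A i x)ᵀ + (MD i S x)ᵀ) (G x * S x)
  simp only [transpose_add, transpose_mul]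
  simp only [mul_add, add_mul, mul_assoc] at e3 e4 ⊢
  rw [e3, e4]
  abel

end Vale.Agent.P354J
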