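import Vale.Agent.P354J.GW

open scoped ContDiff
open Set Filter Topology Matrix

namespace Vale.Agent.P354J

open Vale.Agent.P354H

/-- The rows of E form a frame which is orthonormal for h up to the factor Om; C is the inverse. -/
structure Frm (h : X3 → M3) (Om : X3 → ℝ) (E C : X3 → M3) : Prop where
  sO : ContDiff ℝ ∞ Om
  sE : MS E
  sC : MS C
  ne : ∀ y, Om y ≠ 0
  inv : ∀ y, C y * E y = 1
  on : ∀ y, E y * h y * (E y)ᵀ = Om y ^ 2 • (1 : M3)

/-- The frame (Om N, E 0, E 1, E 2) in the basis of the normal and the coordinate vectors, and the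
inverse matrix. -/
def S0 (Om : X3 → ℝ) (E : X3 → M3) (y : X3) : M4 := blk (Om y) 0 0 (E y)ᵀ
noncomputable def T0 (Om : X3 → ℝ) (C : X3 → M3) (y : X3) : M4 := blk (Om y)⁻¹ 0 0 (C y)ᵀ

/-- The Minkowski matrix. -/
def eta0 : M4 := blk (-1) 0 0 1

lemma blk_mul (c c' : ℝ) (B B' : M3) : blk c 0 0 B * blk c' 0 0 B' = blk (c * c') 0 0 (B * B') := by
  ext a b
  refine Fin.cases ?_ (fun k => ?_) a <;> refine Fin.cases ?_ (fun j => ?_) b <;>
    simp only [Matrix.mul_apply, Fin.sum_univ_succ (n := 3), blk_00, blk_0s, blk_s0, blk_ss,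
      Pi.zero_apply, mul_zero, zero_mul, Finset.sum_const_zero, add_zero, zero_add]

lemma blk_tr (c : ℝ) (B : M3) : (blk c 0 0 B)ᵀ = blk c 0 0 Bᵀ := by
  ext a b
  refine Fin.cases ?_ (fun k => ?_) a <;> refine Fin.cases ?_ (fun j => ?_) b <;> rfl

lemma blk_one : blk 1 0 0 1 = 1 := by
  ext a b
  refine Fin.cases ?_ (fun k => ?_) a <;> refine Fin.cases ?_ (fun j => ?_) b
  · rfl
  · rw [blk_0s, Matrix.one_apply_ne (Fin.succ_ne_zero j).symm]; rfl
  · rw [blk_s0, Matrix.one_apply_ne (Fin.succ_ne_zero k)]; rfl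
  · simp only [blk_ss, Matrix.one_apply, Fin.succ_inj]

lemma blk_smul (r c : ℝ) (B : M3) : r • blk c 0 0 B = blk (r * c) 0 0 (r • B) := by
  ext a b
  refine Fin.cases ?_ (fun k => ?_) a <;> refine Fin.cases ?_ (fun j => ?_) b <;>
    simp only [Matrix.smul_apply, blk_00, blk_0s, blk_s0, blk_ss, Pi.zero_apply, smul_eq_mul,
      mul_zero]

variable {h hi K E C : X3 → M3} {Om : X3 → ℝ}

lemma Frm.sS (F : Frm h Om E C) : MS (S0 Om E) :=
  MS.blk F.sO (fun _ => contDiff_const) (fun _ => contDiff_const) F.sE.tr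

lemma Frm.sT (F : Frm h Om E C) : MS (T0 Om C) :=
  MS.blk (F.sO.inv F.ne) (fun _ => contDiff_const) (fun _ => contDiff_const) F.sC.tr

lemma Frm.inv' (F : Frm h Om E C) (y : X3) : E y * C y = 1 := mul_eq_one_comm.1 (F.inv y)

lemma Frm.TS (F : Frm h Om E C) (y : X3) : T0 Om C y * S0 Om E y = 1 := by
  unfold T0 S0
  rw [blk_mul, inv_mul_cancel₀ (F.ne y), ← transpose_mul, F.inv', transpose_one, blk_one]

lemma Frm.SGS (F : Frm h Om E C) (y : X3) :
    (S0 Om E y)ᵀ * G4 h y * S0 Om E y = Om y ^ 2 • eta0 := by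
  unfold S0 G4 eta0
  rw [blk_tr, blk_mul, blk_mul, transpose_transpose, F.on, blk_smul]
  congr 1
  ring

/-- The derivative along the frame vector E a. -/
noncomputable def fd (E : X3 → M3) (a : Fin 3) (f : X3 → ℝ) (y : X3) : ℝ :=
  ∑ i, E y a i * pd i f y

/-- The same for matrices. -/
noncomputable def FD (E : X3 → M3) (a : Fin 3) (M : X3 → M4) (y : X3) : M4 :=
  Matrix.of fun c d => fd E a (fun z => M z c d) y

lemma FD_eq (a : Fin 3) (M : X3 → M4) (y : X3) : FD E a M y = ∑ i, E y a i • MD i M y := by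
  ext c d
  simp only [FD, fd, of_apply, Matrix.sum_apply, Matrix.smul_apply, MD_apply, smul_eq_mul]

/-- The value of the connection form A on the frame vector E a. -/
noncomputable def ev (E : X3 → M3) (A : Fin 3 → X3 → M4) (a : Fin 3) (y : X3) : M4 :=
  ∑ i, E y a i • A i y

/-- The value of the curvature of A on the frame vectors E a, E b. -/
noncomputable def ev2 (E : X3 → M3) (A : Fin 3 → X3 → M4) (a b : Fin 3) (y : X3) : M4 :=
  ∑ i, ∑ j, (E y a i * E y b j) • curv A i j y

lemma MS.sum {ι m n : Type} (s : Finset ι) {M : ι → X3 → Matrix m n ℝ} (h : ∀ i ∈ s, MS (M i)) :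
    MS fun y => ∑ i ∈ s, M i y := fun a b => by
  simp only [Matrix.sum_apply]
  exact ContDiff.sum fun i hi => h i hi a b

lemma MD_sum {ι m n : Type} (s : Finset ι) {M : ι → X3 → Matrix m n ℝ} (h : ∀ i ∈ s, MS (M i))
    (j : Fin 3) (x : X3) : MD j (fun y => ∑ i ∈ s, M i y) x = ∑ i ∈ s, MD j (M i) x := by
  ext a b
  simp only [MD_apply, Matrix.sum_apply]
  exact pd_sum s (fun i hi => h i hi a b) j x

lemma MS.ev {A : Fin 3 → X3 → M4} (hE : MS E) (hA : ∀ i, MS (A i)) (a : Fin 3) :
    MS (ev E A a) := MS.sum _ fun i _ => MS.smul (hE a i) (hA i)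

/-- The curvature in a frame. -/
lemma ev2_eq {A : Fin 3 → X3 → M4} (hE : MS E) (hA : ∀ i, MS (A i)) (a b : Fin 3) (y : X3) :
    FD E a (ev E A b) y - FD E b (ev E A a) y + ev E A a y * ev E A b y - ev E A b y * ev E A a y -
      ∑ j, (fd E a (fun z => E z b j) y - fd E b (fun z => E z a j) y) • A j y = ev2 E A a b y := by
  have d : ∀ i b, MD i (ev E A b) y =
      ∑ j, (pd i (fun z => E z b j) y • A j y + E y b j • MD i (A j) y) := by
    intro i b
    unfold ev
    rw [MD_sum _ fun j _ => MS.smul (hE b j) (hA j)]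
    exact Finset.sum_congr rfl fun j _ => MD_smul (hE b j) (hA j) i y
  rw [FD_eq, FD_eq]
  simp only [d]
  simp only [ev, ev2, fd, curv, Fin.sum_univ_three, smul_add, smul_sub, add_smul, sub_smul,
    mul_add, add_mul, Matrix.smul_mul, Matrix.mul_smul, smul_smul]
  module

/-- The connection of the data in the frame. -/
noncomputable def om (h hi K : X3 → M3) (Om : X3 → ℝ) (E C : X3 → M3) : Fin 3 → X3 → M4 :=
  gauge (S0 Om E) (T0 Om C) (GW h hi K)

lemma Frm.som (F : Frm h Om E C) (D : Dat h hi K) (i : Fin 3) : MS (om h hi K Om E C i) :=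
  MS.gauge F.sS F.sT D.gw i

lemma T0_I4 (y : X3) (a : Fin 4) (j : Fin 3) :
    (T0 Om C y * I4) a j = Fin.cases 0 (fun c => C y j c) a := by
  rw [mul_I4]
  refine Fin.cases ?_ (fun k => ?_) a <;> rfl

/-- A connection G in the frame E: it is conformal with dilation part d log Om, and torsion
free. -/
structure Cart (Om : X3 → ℝ) (E : X3 → M3) (G : Fin 3 → X3 → M4) : Prop where
  sm : ∀ a, MS (G a)
  co : ∀ a y, (G a y)ᵀ * eta0 + eta0 * G a y = (2 * fd E a Om y / Om y) • eta0
  t0 : ∀ a b y, G a y 0 b.succ = G b y 0 a.succ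
  t3 : ∀ a b y j, fd E a (fun z => E z b j) y - fd E b (fun z => E z a j) y =
    ∑ c, (G a y c.succ b.succ - G b y c.succ a.succ) * E y c j

lemma cart_of {A : Fin 3 → X3 → M4} (F : Frm h Om E C) (hA : ∀ i, MS (A i))
    (hm : IsMet (fun y => Om y ^ 2 • eta0) A) (ht : IsTF (fun y => T0 Om C y * I4) A) :
    Cart Om E (ev E A) := by
  have tf : ∀ a b y (c : Fin 4), ∑ i, ∑ j, E y a i * E y b j *
      (pd i (fun z => (T0 Om C z * I4) c j) y - pd j (fun z => (T0 Om C z * I4) c i) y) +
      ev E A a y c b.succ - ev E A b y c a.succ = 0 := by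
    intro a b y c
    have e1 : ∀ i b, A i y c (Fin.succ b) = ∑ j, E y b j * (A i y * (T0 Om C y * I4)) c j := by
      intro i b
      have h1 : ∀ d, ∑ j, E y b j * C y j d = if b = d then 1 else 0 := fun d => by
        have := congrFun (congrFun (F.inv' y) b) d
        rwa [Matrix.mul_apply, Matrix.one_apply] at this
      have h2 : ∑ j, E y b j * (A i y * (T0 Om C y * I4)) c j =
          ∑ d : Fin 3, A i y c d.succ * ∑ j, E y b j * C y j d := by
        simp only [Matrix.mul_apply (M := A i y), T0_I4, Fin.sum_univ_succ (n := 3),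
          Fin.cases_zero, Fin.cases_succ, Fin.sum_univ_three]
        ring
      rw [h2]
      simp [h1]
    have e2 := fun i j => ht i j y c
    simp only [cov, Matrix.add_apply, MD_apply] at e2
    simp only [ev, Matrix.sum_apply, Matrix.smul_apply, smul_eq_mul, e1, Fin.sum_univ_three]
    linear_combination (E y a 0 * E y b 1 - E y a 1 * E y b 0) * e2 0 1 +
      (E y a 0 * E y b 2 - E y a 2 * E y b 0) * e2 0 2 +
      (E y a 1 * E y b 2 - E y a 2 * E y b 1) * e2 1 2
  refine ⟨MS.ev F.sE hA, fun a y => ?_, fun a b y => ?_, fun a b y j => ?_⟩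
  · have h1 : ∀ i, (A i y)ᵀ * eta0 + eta0 * A i y = (2 * pd i Om y / Om y) • eta0 := by
      intro i
      have h2 := hm i y
      rw [MD_smul (F.sO.pow 2) (MS.const _), MD_const, smul_zero, add_zero, Matrix.mul_smul,
        Matrix.smul_mul, ← smul_add] at h2
      have h3 : pd i (fun y => Om y ^ 2) y = 2 * Om y * pd i Om y := by
        simp only [sq]
        rw [pd_mul F.sO F.sO]
        ring
      have h4 := congrArg (fun M => (Om y ^ 2)⁻¹ • M) h2
      simp only [smul_smul, inv_mul_cancel₀ (pow_ne_zero 2 (F.ne y)), one_smul] at h4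
      rw [← h4, h3]
      congr 1
      field_simp [F.ne y]
    have h5 : (ev E A a y)ᵀ * eta0 + eta0 * ev E A a y =
        ∑ i, E y a i • ((A i y)ᵀ * eta0 + eta0 * A i y) := by
      simp only [ev, Fin.sum_univ_three, transpose_add, transpose_smul, mul_add, add_mul,
        Matrix.smul_mul, Matrix.mul_smul, smul_add]
      abel
    rw [h5]
    simp only [h1, fd, Fin.sum_univ_three, smul_smul, ← add_smul]
    congr 1
    ring
  · have := tf a b y 0
    simp only [T0_I4, Fin.cases_zero, pd_const, sub_self, mul_zero, Finset.sum_const_zero] at this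
    linarith
  · have h1 := fun c : Fin 3 => tf a b y c.succ
    simp only [T0_I4, Fin.cases_succ] at h1
    have h2 : ∀ i b c, ∑ j, (pd i (fun z => E z b j) y * C y j c +
        E y b j * pd i (fun z => C z j c) y) = 0 := by
      intro i b c
      have h3 := congrFun (congrFun (MD_mul F.sE F.sC i y) b) c
      rw [show (fun y => E y * C y) = fun _ => 1 from funext F.inv', MD_const] at h3
      simp only [Matrix.add_apply, Matrix.mul_apply, MD_apply, Matrix.zero_apply] at h3
      rw [Finset.sum_add_distrib, ← h3]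
    have h4 : ∀ k, ∑ c, C y k c * E y c j = if k = j then 1 else 0 := fun k => by
      have := congrFun (congrFun (F.inv y) k) j
      rwa [Matrix.mul_apply, Matrix.one_apply] at this
    have h5 : ∀ c, ev E A a y c.succ b.succ - ev E A b y c.succ a.succ =
        ∑ k, (fd E a (fun z => E z b k) y - fd E b (fun z => E z a k) y) * C y k c := by
      intro c
      have h6 := h1 c
      have h7 := fun i b => h2 i b c
      simp only [Fin.sum_univ_three, fd] at h6 h7 ⊢
      linear_combination h6 - E y a 0 * h7 0 b - E y a 1 * h7 1 b - E y a 2 * h7 2 b +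
        E y b 0 * h7 0 a + E y b 1 * h7 1 a + E y b 2 * h7 2 a
    simp only [h5, Finset.sum_mul, mul_assoc]
    rw [Finset.sum_comm]
    simp [← Finset.mul_sum, h4]

lemma Frm.met (F : Frm h Om E C) (D : Dat h hi K) :
    IsMet (fun y => Om y ^ 2 • eta0) (om h hi K Om E C) := by
  have := IsMet.gauge F.sS F.TS (ms_G4 D.sh) D.met
  rwa [show (fun y => (S0 Om E y)ᵀ * G4 h y * S0 Om E y) = _ from funext F.SGS] at this

lemma Frm.tf (F : Frm h Om E C) (D : Dat h hi K) :
    IsTF (fun y => T0 Om C y * I4) (om h hi K Om E C) :=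
  IsTF.gauge F.sS F.sT F.TS (MS.const I4) D.tf

theorem Frm.cart (F : Frm h Om E C) (D : Dat h hi K) : Cart Om E (ev E (om h hi K Om E C)) :=
  cart_of F (F.som D) (F.met D) (F.tf D)

end Vale.Agent.P354J
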