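import Vale.Agent.P354J.Cov

open scoped ContDiff
open Set Filter Topology Matrix

namespace Vale.Agent.P354J

open Vale.Agent.P354H

abbrev M3 : Type := Matrix (Fin 3) (Fin 3) ℝ
abbrev M4 : Type := Matrix (Fin 4) (Fin 4) ℝ

/-- The 4 x 4 matrix with corner c, first row r, first column l and block B. -/
def blk (c : ℝ) (r l : Fin 3 → ℝ) (B : M3) : M4 :=
  Matrix.of fun a b => Fin.cases (Fin.cases c r b) (fun k => Fin.cases (l k) (B k) b) a

lemma blk_00 (c : ℝ) (r l : Fin 3 → ℝ) (B : M3) : blk c r l B 0 0 = c := rfl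
lemma blk_0s (c : ℝ) (r l : Fin 3 → ℝ) (B : M3) (j : Fin 3) :
    blk c r l B 0 j.succ = r j := rfl
lemma blk_s0 (c : ℝ) (r l : Fin 3 → ℝ) (B : M3) (k : Fin 3) :
    blk c r l B k.succ 0 = l k := rfl
lemma blk_ss (c : ℝ) (r l : Fin 3 → ℝ) (B : M3) (k j : Fin 3) :
    blk c r l B k.succ j.succ = B k j := rfl

lemma MS.blk {c : X3 → ℝ} {r l : X3 → Fin 3 → ℝ} {B : X3 → M3} (hc : ContDiff ℝ ∞ c)
    (hr : ∀ j, ContDiff ℝ ∞ fun y => r y j) (hl : ∀ j, ContDiff ℝ ∞ fun y => l y j) (hB : MS B) :
    MS fun y => blk (c y) (r y) (l y) (B y) := by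
  intro a b
  refine Fin.cases ?_ (fun k => ?_) a <;> refine Fin.cases ?_ (fun j => ?_) b
  · exact hc
  · exact hr j
  · exact hl k
  · exact hB k j

/-- The metric - dt^2 + h in the basis of the unit normal and the coordinate vectors. -/
def G4 (h : X3 → M3) (y : X3) : M4 := blk (-1) 0 0 (h y)

/-- The coordinate vectors in this basis. -/
def I4 : Matrix (Fin 4) (Fin 3) ℝ := Matrix.of fun a j => if a = j.succ then 1 else 0

lemma mul_I4 {m : Type} (B : Matrix m (Fin 4) ℝ) (a : m) (j : Fin 3) :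
    (B * I4) a j = B a j.succ := by
  simp [Matrix.mul_apply, I4]

/-- Christoffel symbols of h with inverse hi: the entry (k, j) is Gamma^k_ij. -/
noncomputable def Chr (h hi : X3 → M3) (i : Fin 3) (y : X3) : M3 :=
  Matrix.of fun k j => ∑ l, hi y k l * ((MD i h y j l + MD j h y i l - MD l h y i j) / 2)

/-- The Gauss-Weingarten connection of (h, K). -/
noncomputable def GW (h hi K : X3 → M3) (i : Fin 3) (y : X3) : M4 :=
  blk 0 (K y i) (fun k => ∑ l, hi y k l * K y i l) (Chr h hi i y)

/-- Smooth symmetric h with inverse hi and smooth symmetric K. -/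
structure Dat (h hi K : X3 → M3) : Prop where
  sh : MS h
  shi : MS hi
  sK : MS K
  symh : ∀ y i j, h y i j = h y j i
  symK : ∀ y i j, K y i j = K y j i
  inv : ∀ y, hi y * h y = 1

variable {h hi K : X3 → M3}

lemma ms_G4 (hh : MS h) : MS (G4 h) :=
  MS.blk contDiff_const (fun _ => contDiff_const) (fun _ => contDiff_const) hh

lemma Dat.chr (D : Dat h hi K) (i : Fin 3) : MS (Chr h hi i) := fun k j =>
  ContDiff.sum (s := Finset.univ) fun l _ => (D.shi k l).mul
    ((((D.sh.md i j l).add (D.sh.md j i l)).sub (D.sh.md l i j)).div_const 2)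

lemma Dat.gw (D : Dat h hi K) (i : Fin 3) : MS (GW h hi K i) :=
  MS.blk contDiff_const (D.sK i) (fun k => ContDiff.sum fun l _ => (D.shi k l).mul (D.sK i l))
    (D.chr i)

lemma Dat.md_sym (D : Dat h hi K) (i : Fin 3) (y : X3) (j l : Fin 3) :
    MD i h y j l = MD i h y l j := by
  simp only [MD_apply, D.symh _ j l]

lemma Dat.low (D : Dat h hi K) (y : X3) (w : Fin 3 → ℝ) (j : Fin 3) :
    ∑ k, h y j k * ∑ l, hi y k l * w l = w j := by
  have h1 : h y * hi y = 1 := mul_eq_one_comm.1 (D.inv y)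
  have : (h y *ᵥ (hi y *ᵥ w)) j = w j := by rw [mulVec_mulVec, h1, one_mulVec]
  simpa [mulVec, dotProduct] using this

lemma Dat.up (D : Dat h hi K) (y : X3) (w : Fin 3 → ℝ) (j : Fin 3) :
    ∑ k, hi y j k * ∑ l, h y k l * w l = w j := by
  have : (hi y *ᵥ (h y *ᵥ w)) j = w j := by rw [mulVec_mulVec, D.inv, one_mulVec]
  simpa [mulVec, dotProduct] using this

lemma MD_G4 (i : Fin 3) (y : X3) : MD i (G4 h) y = blk 0 0 0 (MD i h y) := by
  ext a b
  refine Fin.cases ?_ (fun k => ?_) a <;> refine Fin.cases ?_ (fun j => ?_) b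
  · exact pd_const _ _ _
  · exact pd_const _ _ _
  · exact pd_const _ _ _
  · rfl

lemma met_entry (B : M4) (H : M3) (a b : Fin 4) :
    (Bᵀ * blk (-1) 0 0 H + blk (-1) 0 0 H * B) a b =
      blk (-2 * B 0 0) (fun j => ∑ k, B k.succ 0 * H k j - B 0 j.succ)
        (fun j => ∑ k, H j k * B k.succ 0 - B 0 j.succ)
        (Matrix.of fun j l => ∑ k, B k.succ j.succ * H k l + ∑ k, H j k * B k.succ l.succ) a b := by
  refine Fin.cases ?_ (fun k => ?_) a <;> refine Fin.cases ?_ (fun j => ?_) b <;>
    simp only [Matrix.add_apply, Matrix.mul_apply, transpose_apply, Fin.sum_univ_succ (n := 3),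
      blk_00, blk_0s, blk_s0, blk_ss, Pi.zero_apply, of_apply, mul_zero, zero_mul,
      Finset.sum_const_zero] <;> ring

lemma Dat.met (D : Dat h hi K) : IsMet (G4 h) (GW h hi K) := by
  intro i y
  rw [MD_G4]
  ext a b
  unfold G4
  rw [met_entry]
  refine Fin.cases ?_ (fun k => ?_) a <;> refine Fin.cases ?_ (fun j => ?_) b <;>
    simp only [GW, blk_00, blk_0s, blk_s0, blk_ss, Pi.zero_apply, of_apply, Chr]
  · ring
  · have := D.low y (K y i) j
    simp only [D.symh y j] at this
    rw [← this]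
    simp only [mul_comm, sub_self]
  · rw [D.low y (K y i) k, sub_self]
  · have h1 := D.low y (fun l => (MD i h y k l + MD k h y i l - MD l h y i k) / 2) j
    have h2 := D.low y (fun l => (MD i h y j l + MD j h y i l - MD l h y i j) / 2) k
    simp only [D.symh y j] at h1
    rw [h2]
    simp only [mul_comm (h y _ j)] at h1
    rw [h1, D.md_sym i y j k]
    ring

lemma cov_I4 (A : Fin 3 → X3 → M4) (i j : Fin 3) (y : X3) (a : Fin 4) :
    cov A i (fun _ => I4) y a j = A i y a j.succ := by
  unfold cov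
  rw [MD_const, zero_add, mul_I4]

lemma Dat.tf (D : Dat h hi K) : IsTF (fun _ => I4) (GW h hi K) := by
  intro i j y a
  rw [cov_I4, cov_I4]
  refine Fin.cases ?_ (fun k => ?_) a
  · exact D.symK y i j
  · simp only [GW, blk_ss, Chr, of_apply]
    refine Finset.sum_congr rfl fun l _ => ?_
    rw [D.md_sym l y i j]
    ring

/-- The Gauss-Weingarten connection is the only metric and torsion free one with the second
fundamental form K. -/
theorem Dat.uniq (D : Dat h hi K) {A : Fin 3 → X3 → M4} (hm : IsMet (G4 h) A)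
    (ht : IsTF (fun _ => I4) A) (hK : ∀ i j y, A i y 0 j.succ = K y i j) : A = GW h hi K := by
  have key : ∀ i y a b, blk 0 0 0 (MD i h y) a b = _ := fun i y a b => by
    rw [← MD_G4, hm i y]
    exact met_entry (A i y) (h y) a b
  have sy : ∀ i j y a, A i y a j.succ = A j y a i.succ := fun i j y a => by
    rw [← cov_I4 A i j, ← cov_I4 A j i]
    exact ht i j y a
  funext i y
  ext a b
  refine Fin.cases ?_ (fun k => ?_) a <;> refine Fin.cases ?_ (fun j => ?_) b <;>
    simp only [GW, blk_00, blk_0s, blk_s0, blk_ss, Chr, of_apply]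
  · have := key i y 0 0
    simp only [blk_00] at this
    linarith
  · exact hK i j y
  · rw [← D.up y (fun l => A i y l.succ 0) k]
    refine Finset.sum_congr rfl fun l _ => ?_
    have := key i y l.succ 0
    simp only [blk_s0, Pi.zero_apply] at this
    rw [← hK]
    congr 1
    linarith
  · rw [← D.up y (fun l => A i y l.succ j.succ) k]
    refine Finset.sum_congr rfl fun l _ => ?_
    have h1 := key i y j.succ l.succ
    have h2 := key j y i.succ l.succ
    have h3 := key l y i.succ j.succ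
    simp only [blk_ss, of_apply] at h1 h2 h3
    rw [h1, h2, h3]
    congr 1
    simp only [Fin.sum_univ_three, sy j i y, sy l i y, sy l j y, D.symh y l, D.symh y _ j]
    ring

end Vale.Agent.P354J
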