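import Vale.Agent.P354J.Tame

open scoped ContDiff
open Set Filter Topology Matrix

namespace Vale.Agent.P354J

open Vale.Agent.P354H

section scalar
variable {f g : X3 → ℝ}

lemma pd_add (hf : ContDiff ℝ ∞ f) (hg : ContDiff ℝ ∞ g) (j : Fin 3) (x : X3) :
    pd j (fun y => f y + g y) x = pd j f x + pd j g x := by
  unfold pd
  rw [fderiv_fun_add (sm_diff hf x) (sm_diff hg x)]
  rfl

lemma pd_mul (hf : ContDiff ℝ ∞ f) (hg : ContDiff ℝ ∞ g) (j : Fin 3) (x : X3) :
    pd j (fun y => f y * g y) x = pd j f x * g x + f x * pd j g x := by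
  unfold pd
  rw [fderiv_fun_mul (sm_diff hf x) (sm_diff hg x)]
  simp only [_root_.add_apply, _root_.smul_apply, smul_eq_mul]
  ring

lemma pd_const (c : ℝ) (j : Fin 3) (x : X3) : pd j (fun _ => c) x = 0 := by simp [pd]

lemma pd_neg (j : Fin 3) (x : X3) : pd j (fun y => - f y) x = - pd j f x := by
  unfold pd
  rw [fderiv_fun_neg]
  rfl

lemma pd_sum {ι : Type} (s : Finset ι) {f : ι → X3 → ℝ} (hf : ∀ i ∈ s, ContDiff ℝ ∞ (f i))
    (j : Fin 3) (x : X3) : pd j (fun y => ∑ i ∈ s, f i y) x = ∑ i ∈ s, pd j (f i) x := by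
  unfold pd
  rw [fderiv_fun_sum fun i hi => sm_diff (hf i hi) x]
  simp

lemma pd_comm (hf : ContDiff ℝ ∞ f) (i j : Fin 3) (x : X3) :
    pd i (pd j f) x = pd j (pd i f) x := by
  have h2 : ContDiffAt ℝ 2 f x := hf.contDiffAt.of_le (by norm_cast)
  have hs := h2.isSymmSndFDerivAt (by simp)
  have hd : DifferentiableAt ℝ (fderiv ℝ f) x :=
    sm_diff (hf.fderiv_right (m := ∞) le_rfl) x
  have e1 : ∀ a b : X3, fderiv ℝ (fun y => fderiv ℝ f y b) x a = fderiv ℝ (fderiv ℝ f) x a b := by
    intro a b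
    rw [fderiv_clm_apply hd (differentiableAt_const b)]
    simp
  show fderiv ℝ (fun y => fderiv ℝ f y (e j)) x (e i) = fderiv ℝ (fun y => fderiv ℝ f y (e i)) x (e j)
  rw [e1, e1]
  exact hs.eq _ _

end scalar

variable {l m n : Type}

/-- Entrywise derivative of a field of matrices. -/
noncomputable def MD (j : Fin 3) (M : X3 → Matrix m n ℝ) (x : X3) : Matrix m n ℝ :=
  Matrix.of fun a b => pd j (fun y => M y a b) x

/-- A smooth field of matrices. -/
def MS (M : X3 → Matrix m n ℝ) : Prop := ∀ a b, ContDiff ℝ ∞ fun y => M y a b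

lemma MD_apply (j : Fin 3) (M : X3 → Matrix m n ℝ) (x : X3) (a : m) (b : n) :
    MD j M x a b = pd j (fun y => M y a b) x := rfl

lemma MS.md {M : X3 → Matrix m n ℝ} (h : MS M) (j : Fin 3) : MS (MD j M) :=
  fun a b => sm_pd (h a b) j

lemma MS.add {M N : X3 → Matrix m n ℝ} (h : MS M) (h' : MS N) : MS fun y => M y + N y :=
  fun a b => (h a b).add (h' a b)

lemma MS.sub {M N : X3 → Matrix m n ℝ} (h : MS M) (h' : MS N) : MS fun y => M y - N y :=
  fun a b => (h a b).sub (h' a b)

lemma MS.neg {M : X3 → Matrix m n ℝ} (h : MS M) : MS fun y => - M y := fun a b => (h a b).neg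

lemma MS.const (M : Matrix m n ℝ) : MS fun _ => M := fun _ _ => contDiff_const

lemma MS.smul {c : X3 → ℝ} {M : X3 → Matrix m n ℝ} (hc : ContDiff ℝ ∞ c) (h : MS M) :
    MS fun y => c y • M y := fun a b => hc.mul (h a b)

lemma MS.tr {M : X3 → Matrix m n ℝ} (h : MS M) : MS fun y => (M y)ᵀ := fun a b => h b a

lemma MS.mul [Fintype m] {M : X3 → Matrix l m ℝ} {N : X3 → Matrix m n ℝ} (h : MS M)
    (h' : MS N) : MS fun y => M y * N y := fun a b => by
  simp only [Matrix.mul_apply]
  exact ContDiff.sum fun c _ => (h a c).mul (h' c b)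

lemma MD_add {M N : X3 → Matrix m n ℝ} (h : MS M) (h' : MS N) (j : Fin 3) (x : X3) :
    MD j (fun y => M y + N y) x = MD j M x + MD j N x := by
  ext a b
  exact pd_add (h a b) (h' a b) j x

lemma MD_sub {M N : X3 → Matrix m n ℝ} (h : MS M) (h' : MS N) (j : Fin 3) (x : X3) :
    MD j (fun y => M y - N y) x = MD j M x - MD j N x := by
  ext a b
  exact congrFun (pd_sub (h a b) (h' a b) j) x

lemma MD_neg (M : X3 → Matrix m n ℝ) (j : Fin 3) (x : X3) :
    MD j (fun y => - M y) x = - MD j M x := by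
  ext a b
  exact pd_neg j x

lemma MD_const (M : Matrix m n ℝ) (j : Fin 3) (x : X3) : MD j (fun _ => M) x = 0 := by
  ext a b
  exact pd_const _ j x

lemma MD_tr (M : X3 → Matrix m n ℝ) (j : Fin 3) (x : X3) :
    MD j (fun y => (M y)ᵀ) x = (MD j M x)ᵀ := rfl

lemma MD_smul {c : X3 → ℝ} {M : X3 → Matrix m n ℝ} (hc : ContDiff ℝ ∞ c) (h : MS M)
    (j : Fin 3) (x : X3) : MD j (fun y => c y • M y) x = pd j c x • M x + c x • MD j M x := by
  ext a b
  exact pd_mul hc (h a b) j x

lemma MD_mul [Fintype m] {M : X3 → Matrix l m ℝ} {N : X3 → Matrix m n ℝ} (h : MS M)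
    (h' : MS N) (j : Fin 3) (x : X3) :
    MD j (fun y => M y * N y) x = MD j M x * N x + M x * MD j N x := by
  ext a b
  simp only [MD_apply, Matrix.mul_apply, Matrix.add_apply]
  rw [pd_sum _ fun c _ => (h a c).mul (h' c b), ← Finset.sum_add_distrib]
  exact Finset.sum_congr rfl fun c _ => pd_mul (h a c) (h' c b) j x

lemma MD_comm {M : X3 → Matrix m n ℝ} (h : MS M) (i j : Fin 3) (x : X3) :
    MD i (MD j M) x = MD j (MD i M) x := by
  ext a b
  exact pd_comm (h a b) i j x

variable [Fintype n] [DecidableEq n]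

/-- The curvature of a connection on the trivial bundle. -/
noncomputable def curv (A : Fin 3 → X3 → Matrix n n ℝ) (i j : Fin 3) (x : X3) : Matrix n n ℝ :=
  MD i (A j) x - MD j (A i) x + A i x * A j x - A j x * A i x

/-- The connection A in the frame S with inverse T. -/
noncomputable def gauge (S T : X3 → Matrix n n ℝ) (A : Fin 3 → X3 → Matrix n n ℝ) (i : Fin 3)
    (x : X3) : Matrix n n ℝ := T x * A i x * S x + T x * MD i S x

omit [DecidableEq n] in
lemma MS.gauge {S T : X3 → Matrix n n ℝ} {A : Fin 3 → X3 → Matrix n n ℝ} (hS : MS S)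
    (hT : MS T) (hA : ∀ i, MS (A i)) (i : Fin 3) : MS (gauge S T A i) :=
  ((hT.mul (hA i)).mul hS).add (hT.mul (hS.md i))

omit [DecidableEq n] in
lemma MS.curv {A : Fin 3 → X3 → Matrix n n ℝ} (hA : ∀ i, MS (A i)) (i j : Fin 3) :
    MS (curv A i j) :=
  ((((hA j).md i).sub ((hA i).md j)).add ((hA i).mul (hA j))).sub ((hA j).mul (hA i))

lemma MD_inv {S T : X3 → Matrix n n ℝ} (hS : MS S) (hT : MS T) (hTS : ∀ y, T y * S y = 1)
    (i : Fin 3) (x : X3) : MD i T x = - (T x * MD i S x * T x) := by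
  have h1 := MD_mul hT hS i x
  rw [show (fun y => T y * S y) = fun _ => 1 from funext hTS, MD_const] at h1
  have hST : S x * T x = 1 := mul_eq_one_comm.1 (hTS x)
  have h2 : MD i T x * S x = - (T x * MD i S x) := eq_neg_of_add_eq_zero_left h1.symm
  calc MD i T x = MD i T x * (S x * T x) := by rw [hST, mul_one]
    _ = _ := by rw [← mul_assoc, h2, neg_mul]

/-- The curvature is a tensor. -/
theorem curv_gauge {S T : X3 → Matrix n n ℝ} {A : Fin 3 → X3 → Matrix n n ℝ} (hS : MS S)
    (hT : MS T) (hA : ∀ i, MS (A i)) (hTS : ∀ y, T y * S y = 1) (i j : Fin 3) (x : X3) :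
    curv (gauge S T A) i j x = T x * curv A i j x * S x := by
  have hST : S x * T x = 1 := mul_eq_one_comm.1 (hTS x)
  have d : ∀ i j, MD i (gauge S T A j) x = - (T x * MD i S x * T x) * A j x * S x +
      T x * MD i (A j) x * S x + T x * A j x * MD i S x - T x * MD i S x * T x * MD j S x +
      T x * MD i (MD j S) x := by
    intro i j
    unfold gauge
    rw [MD_add ((hT.mul (hA j)).mul hS) (hT.mul (hS.md j)), MD_mul (hT.mul (hA j)) hS,
      MD_mul hT (hA j), MD_mul hT (hS.md j), MD_inv hS hT hTS]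
    noncomm_ring
  have p : ∀ i j, gauge S T A i x * gauge S T A j x = T x * A i x * A j x * S x +
      T x * A i x * MD j S x + T x * MD i S x * T x * A j x * S x +
      T x * MD i S x * T x * MD j S x := by
    intro i j
    unfold gauge
    have : ∀ B C : Matrix n n ℝ, B * S x * (T x * C) = B * C := by
      intro B C
      rw [mul_assoc, ← mul_assoc (S x), hST, one_mul]
    rw [add_mul, mul_add, mul_add, mul_assoc (T x) (A j x), this, this]
    noncomm_ring
  unfold curv
  rw [d, d, p, p, MD_comm hS i j]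
  noncomm_ring

omit [DecidableEq n] in
/-- The second Bianchi identity. -/
theorem curv_bianchi {A : Fin 3 → X3 → Matrix n n ℝ} (hA : ∀ i, MS (A i)) (i j k : Fin 3)
    (x : X3) :
    (MD i (curv A j k) x + A i x * curv A j k x - curv A j k x * A i x) +
    (MD j (curv A k i) x + A j x * curv A k i x - curv A k i x * A j x) +
    (MD k (curv A i j) x + A k x * curv A i j x - curv A i j x * A k x) = 0 := by
  have d : ∀ i j k, MD i (curv A j k) x = MD i (MD j (A k)) x - MD i (MD k (A j)) x +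
      (MD i (A j) x * A k x + A j x * MD i (A k) x) -
      (MD i (A k) x * A j x + A k x * MD i (A j) x) := by
    intro i j k
    unfold curv
    rw [MD_sub ((((hA k).md j).sub ((hA j).md k)).add ((hA j).mul (hA k))) ((hA k).mul (hA j)),
      MD_add (((hA k).md j).sub ((hA j).md k)) ((hA j).mul (hA k)),
      MD_sub ((hA k).md j) ((hA j).md k), MD_mul (hA j) (hA k), MD_mul (hA k) (hA j)]
  rw [d, d, d, MD_comm (hA k) j i, MD_comm (hA i) k j, MD_comm (hA j) k i]
  unfold curv
  simp only [mul_add, add_mul, mul_sub, sub_mul, mul_assoc]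
  abel

end Vale.Agent.P354J
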