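import Vale.Agent.P354J.Alg2
import Vale.Agent.P354J.Fr

open scoped ContDiff
open Set Filter Topology Matrix

noncomputable section

namespace Vale.Agent.P354J

open Vale.Agent.P354H Vale.Agent.P354C Vale.Agent.P354C.Ix

section
variable {h hi K E C : X3 → M3} {Om : X3 → ℝ}

lemma curv_swap (A : Fin 3 → X3 → M4) (i j : Fin 3) (y : X3) : curv A j i y = -curv A i j y := by
  unfold curv
  abel

lemma Frm.col (F : Frm h Om E C) (y : X3) (M : M4) (c : Fin 4) (b : Fin 3) :
    M c b.succ = ∑ j, E y b j * (M * (T0 Om C y * I4)) c j := by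
  have h1 : ∀ d, ∑ j, E y b j * C y j d = if b = d then 1 else 0 := fun d => by
    have := congrFun (congrFun (F.inv' y) b) d
    rwa [Matrix.mul_apply, Matrix.one_apply] at this
  have h2 : ∑ j, E y b j * (M * (T0 Om C y * I4)) c j =
      ∑ d : Fin 3, M c d.succ * ∑ j, E y b j * C y j d := by
    simp only [Matrix.mul_apply (M := M), T0_I4, Fin.sum_univ_succ (n := 3),
      Fin.cases_zero, Fin.cases_succ, Fin.sum_univ_three]
    ring
  rw [h2]
  simp [h1]

lemma alg_of {A : Fin 3 → X3 → M4} (F : Frm h Om E C) (hA : ∀ i, MS (A i))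
    (hm : IsMet (fun y => Om y ^ 2 • eta0) A) (ht : IsTF (fun y => T0 Om C y * I4) A) (y : X3) :
    Alg fun a b => ev2 E A a b y := by
  refine ⟨fun s t => ?_, fun s t => ?_, fun c => ?_⟩
  · simp only [ev2, Fin.sum_univ_three, curv_swap A 0 1, curv_swap A 0 2, curv_swap A 1 2]
    have k : ∀ i, curv A i i y = 0 := fun i => by unfold curv; abel
    simp only [k]
    module
  · have k : ∀ i j, (curv A i j y)ᵀ * eta0 + eta0 * curv A i j y = 0 := by
      intro i j
      have h1 := curv_skew hA (MS.smul (F.sO.pow 2) (MS.const eta0)) hm i j y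
      rw [Matrix.mul_smul, Matrix.smul_mul, ← smul_add] at h1
      exact (smul_eq_zero.1 h1).resolve_left (pow_ne_zero 2 (F.ne y))
    have h5 : (ev2 E A s t y)ᵀ * eta0 + eta0 * ev2 E A s t y =
        ∑ i, ∑ j, (E y s i * E y t j) • ((curv A i j y)ᵀ * eta0 + eta0 * curv A i j y) := by
      simp only [ev2, Fin.sum_univ_three, transpose_add, transpose_smul, mul_add, add_mul,
        Matrix.smul_mul, Matrix.mul_smul, smul_add]
      abel
    rw [h5]
    simp [k]
  · have k := fun i j k => bianchi1 hA (F.sT.mul (MS.const I4)) ht i j k y c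
    have k1 : ∀ a b (d : Fin 3), ev2 E A a b y c d.succ =
        ∑ i, ∑ j, ∑ k, E y a i * E y b j * E y d k * (curv A i j y * (T0 Om C y * I4)) c k := by
      intro a b d
      simp only [ev2, Matrix.sum_apply, Matrix.smul_apply, smul_eq_mul]
      simp only [F.col y _ c d]
      simp only [Fin.sum_univ_three]
      ring
    have k2 : ∑ i, ∑ j, ∑ k, E y 0 i * E y 1 j * E y 2 k *
        ((curv A i j y * (T0 Om C y * I4)) c k + (curv A j k y * (T0 Om C y * I4)) c i +
          (curv A k i y * (T0 Om C y * I4)) c j) = 0 := by simp [k]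
    show ev2 E A 0 1 y c (Fin.succ 2) + ev2 E A 1 2 y c (Fin.succ 0) +
      ev2 E A 2 0 y c (Fin.succ 1) = 0
    rw [k1, k1, k1, ← k2]
    simp only [Fin.sum_univ_three]
    ring

lemma Frm.hi_eq (F : Frm h Om E C) (D : Dat h hi K) (y : X3) :
    (E y)ᵀ * 1 * E y = Om y ^ 2 • hi y := by
  have h1 : (E y)ᵀ * E y * h y = Om y ^ 2 • (1 : M3) := by
    have h2 : (E y)ᵀ * (E y * h y * (E y)ᵀ) * (C y)ᵀ = (E y)ᵀ * E y * h y := by
      rw [mul_assoc, mul_assoc, ← transpose_mul, F.inv, transpose_one, mul_one, mul_assoc]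
    rw [← h2, F.on, Matrix.mul_smul, mul_one, Matrix.smul_mul, ← transpose_mul, F.inv,
      transpose_one]
  have h3 : h y * hi y = 1 := mul_eq_one_comm.1 (D.inv y)
  rw [mul_one, ← mul_one ((E y)ᵀ * E y), ← h3, ← mul_assoc, h1, Matrix.smul_mul, one_mul]

lemma Frm.traces (F : Frm h Om E C) (D : Dat h hi K) (y : X3) :
    (ham 1 (fun a b => ev2 E (om h hi K Om E C) a b y) = 0 ∧
      ∀ a, mom 1 (fun a b => ev2 E (om h hi K Om E C) a b y) a = 0) ↔
    (ham (hi y) (fun i j => curv (GW h hi K) i j y) = 0 ∧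
      ∀ i, mom (hi y) (fun i j => curv (GW h hi K) i j y) i = 0) := by
  obtain ⟨k1, k2⟩ := ham_tr (p := (Om y)⁻¹) (q := Om y) (fun i j => curv (GW h hi K) i j y)
    (fun a b => ev2 E (om h hi K Om E C) a b y) (F.inv y) (F.hi_eq D y) (fun a b => by
      simp only [ev2, om, curv_gauge F.sS F.sT D.gw F.TS]
      rfl)
  have o2 := pow_ne_zero 2 (F.ne y)
  rw [k1]
  simp only [k2, mul_eq_zero, o2, inv_eq_zero, F.ne y, false_or]
  refine and_congr Iff.rfl ⟨fun k i => ?_, fun k a => by simp [k]⟩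
  have h1 : C y *ᵥ (E y *ᵥ mom (hi y) fun i j => curv (GW h hi K) i j y) = C y *ᵥ 0 := by
    congr 1
    funext a
    exact k a
  rw [mulVec_mulVec, F.inv, one_mulVec, mulVec_zero] at h1
  exact congrFun h1 i

lemma om_0s (s t : Fin 3) (y : X3) :
    ev E (om h hi K Om E C) s y 0 t.succ = (Om y)⁻¹ * (E y * K y * (E y)ᵀ) s t := by
  have k : ∀ i, om h hi K Om E C i y 0 t.succ = (Om y)⁻¹ * ∑ n, K y i n * E y t n := by
    intro i
    have k1 : (T0 Om C y * MD i (S0 Om E) y) 0 t.succ = 0 := by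
      simp only [Matrix.mul_apply, Fin.sum_univ_succ (n := 3), T0, blk_00, blk_0s, Pi.zero_apply,
        zero_mul, Finset.sum_const_zero, add_zero, MD_apply, S0, pd_const, mul_zero]
    simp only [om, gauge, Matrix.add_apply, k1, add_zero]
    exact blk_conj_0s _ _ _ _ _ _
  simp only [ev, Matrix.sum_apply, Matrix.smul_apply, k, smul_eq_mul, Matrix.mul_apply,
    transpose_apply, Fin.sum_univ_three]
  ring

end

lemma fd_lin {ι : Type} [Fintype ι] (L : (ι → ℝ) →ₗ[ℝ] ℝ) (E : X3 → M3) {u : X3 → ι → ℝ}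
    (hu : ∀ i, ContDiff ℝ ∞ fun z => u z i) (s : Fin 3) (y : X3) :
    L (fun i => fd E s (fun z => u z i) y) = fd E s (fun z => L (u z)) y := by
  classical
  have k : ∀ j, pd j (fun z => L (u z)) y =
      ∑ i, pd j (fun z => u z i) y * L fun k => if i = k then 1 else 0 := by
    intro j
    simp only [fun z => L.pi_apply_eq_sum_univ (u z), smul_eq_mul]
    rw [pd_sum _ fun i _ => (hu i).mul contDiff_const]
    refine Finset.sum_congr rfl fun i _ => ?_
    rw [pd_mul (hu i) contDiff_const, pd_const, mul_zero, add_zero]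
  rw [L.pi_apply_eq_sum_univ]
  simp only [fd, k, smul_eq_mul, Finset.sum_mul, Finset.mul_sum, mul_assoc]
  rw [Finset.sum_comm]

lemma DT_dsl (u : X3 → Ix → ℝ) (y : X3) (s : Fin 3) :
    DT (dsl u y) s = cT s • fun i => fd (fun z => Eu (u z)) s (fun z => u z i) y := by
  funext i
  rw [DT_apply]
  fin_cases s <;> simp [tang, dsl, cT, Fin.sum_univ_four]

lemma FD_conj (E : X3 → M3) (s : Fin 3) (c : ℝ) (A B : M4) {M : X3 → M4} (hM : MS M) (y : X3) :
    FD E s (fun z => c • (A * M z * B)) y = c • (A * FD E s M y * B) := by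
  have k : ∀ i, MD i (fun z => c • (A * M z * B)) y = c • (A * MD i M y * B) := by
    intro i
    rw [MD_smul contDiff_const (((MS.const A).mul hM).mul (MS.const B)), pd_const, zero_smul,
      zero_add, MD_mul ((MS.const A).mul hM) (MS.const B), MD_mul (MS.const A) hM, MD_const,
      MD_const]
    simp
  rw [FD_eq, FD_eq]
  simp only [k, Fin.sum_univ_three, mul_add, add_mul, Matrix.smul_mul, Matrix.mul_smul]
  module

variable {h K : X3 → M3}

lemma Eu_U1 (y : X3) : Eu (U1 h K y) = Eh (h y) := rfl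
lemma Eu_U0 (y : X3) : Eu (U0 h K y) = Eh (h y) := rfl

lemma PD.cart (D : PD h K) : Cart (fun y => Oh (h y)) (fun y => Eh (h y)) (Gh h K) :=
  D.frm.cart D.dat

lemma PD.co (D : PD h K) (y : X3) (s : Fin 3) : (Gh h K s y)ᵀ * eta0 + eta0 * Gh h K s y =
    (2 * (fd (fun y => Eh (h y)) s (fun y => Oh (h y)) y / Oh (h y))) • eta0 := by
  rw [D.cart.co, mul_div_assoc]

lemma PD.gt (D : PD h K) (y : X3) (s : Fin 3) :
    GT (U1 h K y) s = cT s • (Zi * Gh h K s y * Z) := GT_u1 (h y) (D.co y) s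

lemma PD.smU1 (D : PD h K) (i : Ix) : ContDiff ℝ ∞ fun y => U1 h K y i := by
  have g := D.cart.sm
  cases i
  all_goals first
    | exact D.comp sm_Oh
    | exact D.comp sm_bh1
    | exact D.comp sm_bh2
    | exact D.comp sm_ph11
    | exact D.comp sm_ph12
    | exact D.comp sm_ph22
    | exact (g _ _ _).add (g _ _ _)
    | exact (g _ _ _).sub (g _ _ _)
    | exact ((g _ _ _).add (g _ _ _)).neg
    | exact ((g _ _ _).sub (g _ _ _)).neg
    | exact ((g _ _ _).add (g _ _ _)).div_const 2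
    | exact ((g _ _ _).sub (g _ _ _)).div_const 2
    | exact contDiff_const.mul (g _ _ _)
    | exact g _ _ _
    | exact contDiff_const

/-- The curvature of the data in the frame. -/
def Fh (h K : X3 → M3) (a b : Fin 3) : X3 → M4 :=
  ev2 (fun y => Eh (h y)) (P354J.om h (fun y => (h y)⁻¹) K (fun y => Oh (h y)) (fun y => Eh (h y))
    (fun y => (Eh (h y))⁻¹)) a b

lemma WT_u1 (H : M3) (G : Fin 3 → M4) (s t : Fin 3) : WT (u1 H G) s t = 0 := by
  ext j k
  have : ∀ x y, Wy (u1 H G) j k x y = 0 := by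
    intro x y
    have k0 : asym (0 : ℝ) 0 0 0 0 0 x y = 0 := by fin_cases x <;> fin_cases y <;> simp [asym]
    fin_cases j <;> fin_cases k <;> simp [Wy, u1, k0]
  simp [WT, this]

lemma PD.curT1 (D : PD h K) (y : X3) (s t : Fin 3) (j k : Fin 4) :
    curT (U1 h K y) (dsl (U1 h K) y) s t j k = ((cT s * cT t) • (Zi * Fh h K s t y * Z)) j k := by
  have c := D.cart
  have k1 : ∀ s t, GT (DT (dsl (U1 h K) y) s) t j k =
      cT s * cT t * (Zi * FD (fun y => Eh (h y)) s (Gh h K t) y * Z) j k := by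
    intro s t
    rw [DT_dsl, ← gtL_apply, map_smul, fd_lin _ _ D.smU1]
    simp only [gtL_apply, D.gt, Eu_U1]
    have := congrFun (congrFun (FD_conj (fun y => Eh (h y)) s (cT t) Zi Z (c.sm t) y) j) k
    rw [FD, of_apply] at this
    rw [this, Matrix.smul_apply, smul_eq_mul, smul_eq_mul, mul_assoc (cT s)]
  have k2 : ∀ s t, GT (U1 h K y) s * GT (U1 h K y) t =
      (cT s * cT t) • (Zi * (Gh h K s y * Gh h K t y) * Z) := by
    intro s t
    rw [D.gt, D.gt, Matrix.smul_mul, Matrix.mul_smul, smul_smul]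
    congr 1
    rw [mul_assoc, ← mul_assoc Z, ← mul_assoc Z, Z_Zi, one_mul]
    simp only [mul_assoc]
  have k3 : ∑ m, TT (U1 h K y) s t m * Gam (U1 h K y) m j k = cT s * cT t *
      ∑ c : Fin 3, (Gh h K s y c.succ t.succ - Gh h K t y c.succ s.succ) *
        (Zi * Gh h K c y * Z) j k := by
    simp only [TT_conj (D.gt y), mul_assoc (cT s * cT t), ← Finset.mul_sum]
    rw [Zi_gam (D.gt y) (fun c => Gh h K s y c t.succ - Gh h K t y c s.succ)
      (sub_eq_zero.2 (c.t0 s t y))]
  have k4 := ev2_eq D.frm.sE (D.frm.som D.dat) s t y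
  simp only [c.t3] at k4
  have k5 : ∑ j, (∑ c : Fin 3, (Gh h K s y c.succ t.succ - Gh h K t y c.succ s.succ) *
      Eh (h y) c j) • P354J.om h (fun y => (h y)⁻¹) K (fun y => Oh (h y)) (fun y => Eh (h y))
        (fun y => (Eh (h y))⁻¹) j y =
      ∑ c : Fin 3, (Gh h K s y c.succ t.succ - Gh h K t y c.succ s.succ) • Gh h K c y := by
    conv_rhs => enter [2, c, 2]; unfold Gh ev
    simp only [Fin.sum_univ_three]
    module
  rw [k5] at k4
  rw [curT_eq, k1, k1, k2, k2, k3, U1, WT_u1, Fh, ← k4]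
  change _ = ((cT s * cT t) • (Zi * (FD _ s (Gh h K t) y - FD _ t (Gh h K s) y +
    Gh h K s y * Gh h K t y - Gh h K t y * Gh h K s y - _) * Z)) j k
  simp only [Fin.sum_univ_three, mul_add, add_mul, mul_sub, sub_mul, Matrix.smul_mul,
    Matrix.mul_smul, Matrix.smul_apply, Matrix.add_apply, Matrix.sub_apply, smul_eq_mul,
    Matrix.zero_apply]
  ring

lemma PD.alg (D : PD h K) (y : X3) : Alg fun a b => Fh h K a b y :=
  alg_of D.frm (D.frm.som D.dat) (D.frm.met D.dat) (D.frm.tf D.dat) y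

lemma PD.smF (D : PD h K) (a b : Fin 3) : MS (Fh h K a b) :=
  MS.sum Finset.univ fun i _ => MS.sum Finset.univ fun j _ =>
    MS.smul ((D.frm.sE a i).mul (D.frm.sE b j)) (MS.curv (D.frm.som D.dat) i j)

lemma PD.smR (D : PD h K) (s t : Fin 3) (j k : Fin 4) :
    ContDiff ℝ ∞ fun y => curT (U1 h K y) (dsl (U1 h K) y) s t j k := by
  simp only [D.curT1]
  exact MS.smul contDiff_const (((MS.const Zi).mul (D.smF s t)).mul (MS.const Z)) j k

/-- The Weyl components. -/
def isW : Ix → Bool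
  | .a1 | .a2 | .be1 | .be2 | .rho | .sig | .bb1 | .bb2 | .ab1 | .ab2 => true
  | _ => false

lemma u2_of (U : Ix → ℝ) (dU : Fin 4 → Ix → ℝ) {i : Ix} (hi : isW i = false) : u2 U dU i = U i := by
  cases i <;> first | rfl | exact absurd hi (by decide)

lemma PD.smU0 (D : PD h K) (i : Ix) : ContDiff ℝ ∞ fun y => U0 h K y i := by
  have g := D.smR
  cases hi : isW i
  · simp only [U0, u2_of _ _ hi]
    exact D.smU1 i
  · cases i
    case a1 => exact ((g _ _ _ _).sub (g _ _ _ _)).div_const 2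
    case a2 => exact ((g _ _ _ _).add (g _ _ _ _)).neg.div_const 2
    case be1 => exact g _ _ _ _
    case be2 => exact (g _ _ _ _).neg
    case rho => exact (g _ _ _ _).div_const 2
    case sig => exact (g _ _ _ _).div_const 2
    case bb1 => exact (g _ _ _ _).neg
    case bb2 => exact g _ _ _ _
    case ab1 => exact ((g _ _ _ _).sub (g _ _ _ _)).div_const 2
    case ab2 => exact ((g _ _ _ _).add (g _ _ _ _)).div_const 2
    all_goals exact absurd hi (by decide)

end Vale.Agent.P354J
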