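import Vale.Agent.P354H.Defs

open scoped ContDiff
open Set Filter Topology

namespace Vale.Agent.P354J

open Vale.Agent.P354H

section
variable {V W : Type} [NormedAddCommGroup V] [NormedSpace ℝ V] [NormedAddCommGroup W]
  [NormedSpace ℝ W]

lemma sm_pd {f : X3 → V} (hf : ContDiff ℝ ∞ f) (j : Fin 3) : ContDiff ℝ ∞ (pd j f) := by
  unfold pd
  exact (hf.fderiv_right (m := ∞) le_rfl).clm_apply contDiff_const

lemma sm_pdl {f : X3 → V} (hf : ContDiff ℝ ∞ f) (α : List (Fin 3)) :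
    ContDiff ℝ ∞ (pdl α f) := by
  induction α generalizing f with
  | nil => exact hf
  | cons j α ih => exact ih (sm_pd hf j)

lemma sm_diff {f : X3 → V} (hf : ContDiff ℝ ∞ f) (x : X3) : DifferentiableAt ℝ f x :=
  (hf.differentiable (by simp)).differentiableAt

lemma pd_clm (L : V →L[ℝ] W) {f : X3 → V} (hf : ContDiff ℝ ∞ f) (j : Fin 3) :
    pd j (fun y => L (f y)) = fun y => L (pd j f y) := by
  funext x
  have := (L.hasFDerivAt.comp x (sm_diff hf x).hasFDerivAt).fderiv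
  unfold pd
  rw [show (fun y => L (f y)) = L ∘ f from rfl, this]
  rfl

lemma pdl_clm (L : V →L[ℝ] W) {f : X3 → V} (hf : ContDiff ℝ ∞ f) (α : List (Fin 3)) :
    pdl α (fun y => L (f y)) = fun y => L (pdl α f y) := by
  induction α generalizing f with
  | nil => rfl
  | cons j α ih =>
    show pdl α (pd j fun y => L (f y)) = _
    rw [pd_clm L hf, ih (sm_pd hf j)]
    rfl

lemma pd_sub {f g : X3 → V} (hf : ContDiff ℝ ∞ f) (hg : ContDiff ℝ ∞ g) (j : Fin 3) :
    pd j (fun y => f y - g y) = fun y => pd j f y - pd j g y := by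
  funext x
  unfold pd
  rw [fderiv_fun_sub (sm_diff hf x) (sm_diff hg x)]
  rfl

lemma pdl_sub {f g : X3 → V} (hf : ContDiff ℝ ∞ f) (hg : ContDiff ℝ ∞ g) (α : List (Fin 3)) :
    pdl α (fun y => f y - g y) = fun y => pdl α f y - pdl α g y := by
  induction α generalizing f g with
  | nil => rfl
  | cons j α ih =>
    show pdl α (pd j fun y => f y - g y) = _
    rw [pd_sub hf hg, ih (sm_pd hf j) (sm_pd hg j)]
    rfl

lemma pd_pair {f : X3 → V} {g : X3 → W} (hf : ContDiff ℝ ∞ f) (hg : ContDiff ℝ ∞ g)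
    (j : Fin 3) : pd j (fun y => (f y, g y)) = fun y => (pd j f y, pd j g y) := by
  funext x
  unfold pd
  rw [((sm_diff hf x).hasFDerivAt.prodMk (sm_diff hg x).hasFDerivAt).fderiv]
  rfl

lemma pdl_pair {f : X3 → V} {g : X3 → W} (hf : ContDiff ℝ ∞ f) (hg : ContDiff ℝ ∞ g)
    (α : List (Fin 3)) : pdl α (fun y => (f y, g y)) = fun y => (pdl α f y, pdl α g y) := by
  induction α generalizing f g with
  | nil => rfl
  | cons j α ih =>
    show pdl α (pd j fun y => (f y, g y)) = _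
    rw [pd_pair hf hg, ih (sm_pd hf j) (sm_pd hg j)]
    rfl

/-- All derivatives of f of order at most k at the point x are bounded by c. -/
def Bd (k : ℕ) (f : X3 → V) (x : X3) (c : ℝ) : Prop :=
  ∀ α : List (Fin 3), α.length ≤ k → ‖pdl α f x‖ ≤ c

lemma Bd.mono {k k' : ℕ} {f : X3 → V} {x : X3} {c c' : ℝ} (h : Bd k f x c) (hk : k' ≤ k)
    (hc : c ≤ c') : Bd k' f x c' := fun α hα => (h α (hα.trans hk)).trans hc

lemma Bd.zero {k : ℕ} {f : X3 → V} {x : X3} {c : ℝ} (h : Bd k f x c) : ‖f x‖ ≤ c :=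
  h [] (Nat.zero_le _)

lemma Bd.nonneg {k : ℕ} {f : X3 → V} {x : X3} {c : ℝ} (h : Bd k f x c) : 0 ≤ c :=
  (norm_nonneg _).trans h.zero

lemma Bd.pd {k : ℕ} {f : X3 → V} {x : X3} {c : ℝ} (h : Bd (k + 1) f x c) (j : Fin 3) :
    Bd k (pd j f) x c := fun α hα => h (j :: α) (by simpa using hα)

lemma Bd.succ {k : ℕ} {f : X3 → V} {x : X3} {c : ℝ} (h0 : ‖f x‖ ≤ c)
    (h : ∀ j, Bd k (P354H.pd j f) x c) : Bd (k + 1) f x c := by
  intro α hα
  cases α with
  | nil => exact h0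
  | cons j α => exact h j α (by simpa using hα)

lemma Bd.pair {k : ℕ} {f : X3 → V} {g : X3 → W} {x : X3} {c : ℝ} (hf : ContDiff ℝ ∞ f)
    (hg : ContDiff ℝ ∞ g) (h : Bd k f x c) (h' : Bd k g x c) :
    Bd k (fun y => (f y, g y)) x c := by
  intro α hα
  rw [pdl_pair hf hg, Prod.norm_def]
  exact max_le (h α hα) (h' α hα)

/-- The smooth functions f and g have derivatives of order at most m bounded by B at x, and
those of their difference are bounded by ε. -/
structure Tm (m : ℕ) (B ε : ℝ) (x : X3) (f g : X3 → V) : Prop where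
  sf : ContDiff ℝ ∞ f
  sg : ContDiff ℝ ∞ g
  bf : Bd m f x B
  bg : Bd m g x B
  bd : Bd m (fun y => f y - g y) x ε

lemma Tm.mono {m m' : ℕ} {B B' ε ε' : ℝ} {x : X3} {f g : X3 → V} (h : Tm m B ε x f g)
    (hm : m' ≤ m) (hB : B ≤ B') (hε : ε ≤ ε') : Tm m' B' ε' x f g :=
  ⟨h.sf, h.sg, h.bf.mono hm hB, h.bg.mono hm hB, h.bd.mono hm hε⟩

lemma Tm.pd {m : ℕ} {B ε : ℝ} {x : X3} {f g : X3 → V} (h : Tm (m + 1) B ε x f g) (j : Fin 3) :
    Tm m B ε x (pd j f) (pd j g) := by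
  refine ⟨sm_pd h.sf j, sm_pd h.sg j, h.bf.pd j, h.bg.pd j, ?_⟩
  have := h.bd.pd j
  rwa [pd_sub h.sf h.sg] at this

lemma Tm.pair {m : ℕ} {B ε : ℝ} {x : X3} {f g : X3 → V} {f' g' : X3 → W} (h : Tm m B ε x f g)
    (h' : Tm m B ε x f' g') : Tm m B ε x (fun y => (f y, f' y)) (fun y => (g y, g' y)) :=
  ⟨h.sf.prodMk h'.sf, h.sg.prodMk h'.sg, Bd.pair h.sf h'.sf h.bf h'.bf,
    Bd.pair h.sg h'.sg h.bg h'.bg, Bd.pair (h.sf.sub h.sg) (h'.sf.sub h'.sg) h.bd h'.bd⟩

lemma pd_comp {F : V → W} {O : Set V} (hO : IsOpen O) (hF : ContDiffOn ℝ ∞ F O) {f : X3 → V}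
    (hf : ContDiff ℝ ∞ f) (hfO : ∀ y, f y ∈ O) (j : Fin 3) :
    pd j (fun y => F (f y)) = fun y => fderiv ℝ F (f y) (pd j f y) := by
  funext x
  have h1 : DifferentiableAt ℝ F (f x) :=
    ((hF.contDiffAt (hO.mem_nhds (hfO x))).differentiableAt (by simp))
  have := (h1.hasFDerivAt.comp x (sm_diff hf x).hasFDerivAt).fderiv
  unfold pd
  rw [show (fun y => F (f y)) = F ∘ f from rfl, this]
  rfl

end

/-- Composition with a smooth map is Lipschitz for all derivatives at a point. -/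
theorem Tm.comp (m : ℕ) : ∀ (V W : Type) [NormedAddCommGroup V] [NormedSpace ℝ V]
    [FiniteDimensional ℝ V] [NormedAddCommGroup W] [NormedSpace ℝ W] (F : V → W) (O Q : Set V)
    (B : ℝ), IsOpen O → ContDiffOn ℝ ∞ F O → Q ⊆ O → IsCompact Q → Convex ℝ Q →
    ∃ C, 0 ≤ C ∧ ∀ ε x (f g : X3 → V), Tm m B ε x f g → (∀ y, f y ∈ O) → (∀ y, g y ∈ O) →
      f x ∈ Q → g x ∈ Q → Tm m C (C * ε) x (fun y => F (f y)) (fun y => F (g y)) := by
  have base : ∀ (V W : Type) [NormedAddCommGroup V] [NormedSpace ℝ V]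
      [NormedAddCommGroup W] [NormedSpace ℝ W] (F : V → W) (O Q : Set V),
      IsOpen O → ContDiffOn ℝ ∞ F O → Q ⊆ O → IsCompact Q → Convex ℝ Q →
      ∃ C, 0 ≤ C ∧ ∀ a ∈ Q, ‖F a‖ ≤ C ∧ ∀ b ∈ Q, ‖F a - F b‖ ≤ C * ‖a - b‖ := by
    intro V W _ _ _ _ F O Q hO hF hQ hc hv
    obtain ⟨C1, hC1⟩ := hc.exists_bound_of_continuousOn (hF.continuousOn.mono hQ)
    have hD : ContinuousOn (fderiv ℝ F) O := hF.continuousOn_fderiv_of_isOpen hO (by simp)
    obtain ⟨C2, hC2⟩ := hc.exists_bound_of_continuousOn (hD.mono hQ)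
    refine ⟨max 0 (max C1 C2), le_max_left _ _, fun a ha => ⟨(hC1 a ha).trans
      ((le_max_left _ _).trans (le_max_right _ _)), fun b hb => ?_⟩⟩
    refine hv.norm_image_sub_le_of_norm_fderiv_le (𝕜 := ℝ) (fun z hz => ?_) (fun z hz => ?_) hb ha
    · exact (hF.contDiffAt (hO.mem_nhds (hQ hz))).differentiableAt (by simp)
    · exact (hC2 z hz).trans ((le_max_right _ _).trans (le_max_right _ _))
  induction m with
  | zero =>
    intro V W _ _ _ _ _ F O Q B hO hF hQ hc hv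
    obtain ⟨C, hC0, hC⟩ := base V W F O Q hO hF hQ hc hv
    refine ⟨C, hC0, fun ε x f g h hf hg hfx hgx => ⟨hF.comp_contDiff h.sf hf,
      hF.comp_contDiff h.sg hg, ?_, ?_, ?_⟩⟩
    · intro α hα
      rw [List.length_eq_zero_iff.1 (Nat.le_zero.1 hα)]
      exact (hC _ hfx).1
    · intro α hα
      rw [List.length_eq_zero_iff.1 (Nat.le_zero.1 hα)]
      exact (hC _ hgx).1
    · intro α hα
      rw [List.length_eq_zero_iff.1 (Nat.le_zero.1 hα)]
      exact ((hC _ hfx).2 _ hgx).trans (mul_le_mul_of_nonneg_left h.bd.zero hC0)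
  | succ m ih =>
    intro V W _ _ _ _ _ F O Q B hO hF hQ hc hv
    obtain ⟨C, hC0, hC⟩ := base V W F O Q hO hF hQ hc hv
    have hH : ContDiffOn ℝ ∞ (fun p : V × V => fderiv ℝ F p.1 p.2) (O ×ˢ univ) := by
      refine ContDiffOn.clm_apply ?_ contDiffOn_snd
      exact (hF.fderiv_of_isOpen hO (m := ∞) le_rfl).comp contDiffOn_fst (fun p hp => hp.1)
    obtain ⟨C', hC0', hC'⟩ := ih (V × V) W (fun p : V × V => fderiv ℝ F p.1 p.2) (O ×ˢ univ)
      (Q ×ˢ Metric.closedBall 0 B) B (hO.prod isOpen_univ) hH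
      (prod_mono hQ (subset_univ _)) (hc.prod (isCompact_closedBall _ _))
      (hv.prod (convex_closedBall _ _))
    refine ⟨max C C', le_max_of_le_left hC0, fun ε x f g h hf hg hfx hgx => ?_⟩
    have hε := h.bd.nonneg
    have key : ∀ j, Tm m (max C C') (max C C' * ε) x (P354H.pd j fun y => F (f y))
        (P354H.pd j fun y => F (g y)) := by
      intro j
      rw [pd_comp hO hF h.sf hf, pd_comp hO hF h.sg hg]
      refine (hC' ε x (fun y => (f y, P354H.pd j f y)) (fun y => (g y, P354H.pd j g y))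
        ((h.mono (Nat.le_succ m) le_rfl le_rfl).pair (h.pd j)) (fun y => ⟨hf y, mem_univ _⟩)
        (fun y => ⟨hg y, mem_univ _⟩) ⟨hfx, ?_⟩ ⟨hgx, ?_⟩).mono le_rfl (le_max_right _ _)
        (mul_le_mul_of_nonneg_right (le_max_right _ _) hε)
      · exact mem_closedBall_zero_iff.2 (h.bf.pd j).zero
      · exact mem_closedBall_zero_iff.2 (h.bg.pd j).zero
    have sf : ContDiff ℝ ∞ fun y => F (f y) := hF.comp_contDiff h.sf hf
    have sg : ContDiff ℝ ∞ fun y => F (g y) := hF.comp_contDiff h.sg hg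
    refine ⟨sf, sg, Bd.succ ((hC _ hfx).1.trans (le_max_left _ _)) fun j => (key j).bf,
      Bd.succ ((hC _ hgx).1.trans (le_max_left _ _)) fun j => (key j).bg, Bd.succ ?_ fun j => ?_⟩
    · exact ((hC _ hfx).2 _ hgx).trans
        (mul_le_mul (le_max_left _ _) h.bd.zero (norm_nonneg _) (le_max_of_le_left hC0))
    · rw [pd_sub sf sg]
      exact (key j).bd

end Vale.Agent.P354J
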